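import Crest.Agent.R080.SeeleyHalf

/-!
Row 207, S0320, geometry part G3 (helper49), file 1: smooth extension from a strip
`J × [0,1]` to `J × ℝ` (`J = ℝ` or an open interval).
-/

set_option autoImplicit false

open scoped ContDiff Manifold Topology
open Set Filter Metric

noncomputable section

namespace Crest.Agent.N207.S.Gc

variable {F : Type} [NormedAddCommGroup F] [NormedSpace ℝ F] [CompleteSpace F]

theorem loc_ext0 {f : ℝ × ℝ → F} (hf : ContDiffOn ℝ ∞ f (univ ×ˢ Icc 0 1)) (t : ℝ) :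
    ∃ g : ℝ × ℝ → F, ContDiff ℝ ∞ g ∧ ∀ᶠ p in 𝓝 (t, (0 : ℝ)), 0 ≤ p.2 → g p = f p := by
  let b : ContDiffBump ((t, (0 : ℝ)) : ℝ × ℝ) := ⟨1 / 4, 1 / 2, by norm_num, by norm_num⟩
  let ℓ : ℝ × ℝ →L[ℝ] ℝ := -ContinuousLinearMap.snd ℝ ℝ ℝ
  have hℓ : ℓ (0, -1) = 1 := by simp [ℓ]
  have hℓ' : ∀ p : ℝ × ℝ, ℓ p ≤ 0 ↔ 0 ≤ p.2 := fun p => by simp [ℓ]
  have hzero : ∀ p, p ∉ closedBall ((t, (0 : ℝ)) : ℝ × ℝ) (1 / 2) → b p • f p = 0 := by
    intro p hp
    have : b p = 0 := b.zero_of_le_dist (by rw [mem_closedBall, not_le] at hp; exact hp.le)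
    rw [this, zero_smul]
  have hs : ContDiffOn ℝ ∞ (fun p => b p • f p) {p | ℓ p ≤ 0} := by
    intro p hp
    by_cases h1 : p.2 < 1
    · refine b.contDiff.contDiffAt.contDiffWithinAt.smul ?_
      refine (hf p ⟨trivial, (hℓ' p).1 hp, h1.le⟩).mono_of_mem_nhdsWithin ?_
      filter_upwards [self_mem_nhdsWithin,
        mem_nhdsWithin_of_mem_nhds ((isOpen_lt continuous_snd continuous_const).mem_nhds h1)]
        with r h2 h3
      exact ⟨trivial, (hℓ' r).1 h2, le_of_lt h3⟩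
    · have h2 : p ∉ closedBall ((t, (0 : ℝ)) : ℝ × ℝ) (1 / 2) := by
        intro h
        rw [mem_closedBall, Prod.dist_eq, max_le_iff] at h
        have := h.2
        rw [Real.dist_eq, sub_zero, abs_le] at this
        linarith [this.2]
      have h3 : (fun p => b p • f p) =ᶠ[𝓝 p] fun _ => 0 := by
        filter_upwards [isClosed_closedBall.isOpen_compl.mem_nhds h2] with y hy using hzero y hy
      exact (contDiffAt_const.congr_of_eventuallyEq h3).contDiffWithinAt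
  obtain ⟨g, hg, hgf⟩ := R080.Seeley.halfspace_ext hℓ hs (isCompact_closedBall _ _) hzero
  refine ⟨g, hg, ?_⟩
  filter_upwards [closedBall_mem_nhds ((t, (0 : ℝ)) : ℝ × ℝ) (by norm_num : (0 : ℝ) < 1 / 4)]
    with p hp h0
  rw [hgf p ((hℓ' p).2 h0), b.one_of_mem_closedBall hp, one_smul]

theorem loc_ext1 {f : ℝ × ℝ → F} (hf : ContDiffOn ℝ ∞ f (univ ×ˢ Icc 0 1)) (t : ℝ) :
    ∃ g : ℝ × ℝ → F, ContDiff ℝ ∞ g ∧ ∀ᶠ p in 𝓝 (t, (1 : ℝ)), p.2 ≤ 1 → g p = f p := by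
  have hR : ContDiff ℝ ∞ fun p : ℝ × ℝ => (p.1, 1 - p.2) := by fun_prop
  obtain ⟨g, hg, h⟩ := loc_ext0 (f := fun p => f (p.1, 1 - p.2))
    (hf.comp hR.contDiffOn fun p hp => ⟨trivial, by linarith [hp.2.2], by linarith [hp.2.1]⟩) t
  refine ⟨fun p => g (p.1, 1 - p.2), hg.comp hR, ?_⟩
  have h1 : Tendsto (fun p : ℝ × ℝ => (p.1, 1 - p.2)) (𝓝 (t, 1)) (𝓝 (t, 0)) := by
    have := hR.continuous.tendsto (t, 1)
    simpa using this
  filter_upwards [h1.eventually h] with p hp h2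
  rw [hp (by simpa using h2)]
  simp

/-- extension from `ℝ × [0,1]` -/
theorem ext_univ {f : ℝ × ℝ → F} (hf : ContDiffOn ℝ ∞ f (univ ×ˢ Icc 0 1)) :
    ∃ g : ℝ × ℝ → F, ContDiff ℝ ∞ g ∧ ∀ p : ℝ × ℝ, p.2 ∈ Icc (0 : ℝ) 1 → g p = f p := by
  set T : ℝ × ℝ → Set F := fun p => {v | p.2 ∈ Icc (0 : ℝ) 1 → v = f p} with hT
  have hc : ∀ p, Convex ℝ (T p) := by
    intro p u hu v hv a b _ _ hab hp
    rw [hu hp, hv hp, ← add_smul, hab, one_smul]
  obtain ⟨g, hg⟩ := exists_contMDiffMap_forall_mem_convex_of_local (n := ⊤) (t := T)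
    𝓘(ℝ, ℝ × ℝ) hc (by
      rintro ⟨t, x⟩
      by_cases hx : x ∈ Icc (0 : ℝ) 1
      · rcases hx.1.eq_or_lt with rfl | h0
        · obtain ⟨g, hg, h⟩ := loc_ext0 hf t
          exact ⟨_, h, g, hg.contMDiff.contMDiffOn, fun y hy hy' => hy hy'.1⟩
        rcases hx.2.eq_or_lt with rfl | h1
        · obtain ⟨g, hg, h⟩ := loc_ext1 hf t
          exact ⟨_, h, g, hg.contMDiff.contMDiffOn, fun y hy hy' => hy hy'.2⟩
        refine ⟨univ ×ˢ Ioo 0 1, (isOpen_univ.prod isOpen_Ioo).mem_nhds ⟨trivial, h0, h1⟩, f,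
          (hf.mono (prod_mono le_rfl Ioo_subset_Icc_self)).contMDiffOn, fun y _ _ => rfl⟩
      · refine ⟨{p | p.2 ∉ Icc (0 : ℝ) 1}, ?_, fun _ => 0, contMDiffOn_const,
          fun y hy hy' => absurd hy' hy⟩
        exact (isClosed_Icc.isOpen_compl.preimage continuous_snd).mem_nhds hx)
  exact ⟨g, g.contMDiff.contDiff, fun p hp => hg p hp⟩

/-- **extension from `(a,T) × [0,1]`** -/
theorem ext_Ioo {f : ℝ × ℝ → F} {a T : ℝ} (hf : ContDiffOn ℝ ∞ f (Ioo a T ×ˢ Icc 0 1)) :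
    ∃ g : ℝ × ℝ → F, (∀ p : ℝ × ℝ, p.1 ∈ Ioo a T → ContDiffAt ℝ ∞ g p) ∧
      ∀ p : ℝ × ℝ, p.1 ∈ Ioo a T → p.2 ∈ Icc (0 : ℝ) 1 → g p = f p := by
  rcases le_or_gt T a with h | h
  · exact ⟨f, fun p hp => absurd (hp.1.trans hp.2) h.not_gt, fun _ _ _ => rfl⟩
  have hs : ContDiff ℝ ∞ Real.sigmoid := contDiff_sigmoid.of_le le_top
  have hθ : ContDiff ℝ ∞ fun p : ℝ × ℝ => (a + (T - a) * Real.sigmoid p.1, p.2) :=
    (contDiff_const.add (contDiff_const.mul (hs.comp contDiff_fst))).prodMk contDiff_snd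
  obtain ⟨g, hg, hgf⟩ := ext_univ (f := fun p => f (a + (T - a) * Real.sigmoid p.1, p.2))
    (hf.comp hθ.contDiffOn fun p hp => ⟨⟨by
      have := mul_pos (sub_pos.2 h) (Real.sigmoid_pos p.1); simpa using this, by
      have := mul_lt_mul_of_pos_left (Real.sigmoid_lt_one p.1) (sub_pos.2 h)
      show a + (T - a) * Real.sigmoid p.1 < T
      linarith⟩, hp.2⟩)
  refine ⟨fun p => g (Real.log ((p.1 - a) / (T - p.1)), p.2), fun p hp => ?_, fun p hp hx => ?_⟩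
  · have h1 := sub_pos.2 hp.1
    have h2 := sub_pos.2 hp.2
    refine hg.contDiffAt.comp p (ContDiffAt.prodMk (ContDiffAt.log ?_ (by positivity)) contDiffAt_snd)
    exact (contDiffAt_fst.sub contDiffAt_const).div (contDiffAt_const.sub contDiffAt_fst) h2.ne'
  · have h1 := sub_pos.2 hp.1
    have h2 := sub_pos.2 hp.2
    have h3 := sub_pos.2 h
    refine (hgf (Real.log ((p.1 - a) / (T - p.1)), p.2) hx).trans ?_
    have : a + (T - a) * Real.sigmoid (Real.log ((p.1 - a) / (T - p.1))) = p.1 := by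
      rw [Real.sigmoid_def, Real.exp_neg, Real.exp_log (by positivity)]
      have : 1 + ((p.1 - a) / (T - p.1))⁻¹ = (T - a) / (p.1 - a) := by field_simp; ring
      rw [this]; field_simp; ring
    simp only [this]

end Crest.Agent.N207.S.Gc
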