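import Crest.Agent.N207.S.GDefs
/-!
Row 207 / S0320 geometry, G1a: a small calculus for `pderiv`, and the height function `hh`.
-/

set_option autoImplicit false
open scoped ContDiff Topology
open Set Filter Crest.GeometryTopology.CoordMetric

noncomputable section

namespace Crest.Agent.N207.S.Geo

variable {m : ℕ}

/-- Kronecker delta. -/
def dl (i j : Fin m) : ℝ := if i = j then 1 else 0

lemma dl_self (i : Fin m) : dl i i = 1 := by simp [dl]
lemma dl_ne {i j : Fin m} (h : i ≠ j) : dl i j = 0 := by simp [dl, h]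
lemma dl_comm (i j : Fin m) : dl i j = dl j i := by simp [dl, eq_comm]
lemma sum_dl (i : Fin m) (f : Fin m → ℝ) : ∑ k, dl k i * f k = f i := by simp [dl]
lemma sum_dl' (i : Fin m) (f : Fin m → ℝ) : ∑ k, dl i k * f k = f i := by simp [dl]

/-- `f` is differentiable at `x` with partial derivatives `d`. -/
def HP (f : EuclideanSpace ℝ (Fin m) → ℝ) (x : EuclideanSpace ℝ (Fin m)) (d : Fin m → ℝ) : Prop :=
  DifferentiableAt ℝ f x ∧ ∀ k, pderiv k f x = d k

namespace HP

variable {f g : EuclideanSpace ℝ (Fin m) → ℝ} {x : EuclideanSpace ℝ (Fin m)} {d e : Fin m → ℝ}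

lemma congr_d (h : HP f x d) (hd : ∀ k, d k = e k) : HP f x e :=
  ⟨h.1, fun k => (h.2 k).trans (hd k)⟩

lemma congr_ev (h : HP f x d) (hg : g =ᶠ[𝓝 x] f) : HP g x d :=
  ⟨hg.differentiableAt_iff.2 h.1, fun k => by
    rw [← h.2 k]; unfold pderiv; rw [hg.fderiv_eq]⟩

lemma congr_f (h : HP f x d) (hg : ∀ y, g y = f y) : HP g x d :=
  h.congr_ev (Eventually.of_forall hg)

lemma const (c : ℝ) (x : EuclideanSpace ℝ (Fin m)) : HP (fun _ => c) x (fun _ => 0) :=
  ⟨differentiableAt_const c, fun k => by simp [pderiv]⟩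

lemma coord (i : Fin m) (x : EuclideanSpace ℝ (Fin m)) : HP (fun y => y i) x (fun k => dl i k) := by
  have h : HasFDerivAt (fun y : EuclideanSpace ℝ (Fin m) => y i)
      (EuclideanSpace.proj i : EuclideanSpace ℝ (Fin m) →L[ℝ] ℝ) x :=
    (EuclideanSpace.proj i : EuclideanSpace ℝ (Fin m) →L[ℝ] ℝ).hasFDerivAt
  refine ⟨h.differentiableAt, fun k => ?_⟩
  unfold pderiv; rw [h.fderiv]; simp [dl]

lemma add (hf : HP f x d) (hg : HP g x e) : HP (fun y => f y + g y) x (fun k => d k + e k) :=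
  ⟨hf.1.add hg.1, fun k => by
    beta_reduce; rw [← hf.2 k, ← hg.2 k]; unfold pderiv; rw [fderiv_fun_add hf.1 hg.1]; simp⟩

lemma sub (hf : HP f x d) (hg : HP g x e) : HP (fun y => f y - g y) x (fun k => d k - e k) :=
  ⟨hf.1.sub hg.1, fun k => by
    beta_reduce; rw [← hf.2 k, ← hg.2 k]; unfold pderiv; rw [fderiv_fun_sub hf.1 hg.1]; simp⟩

lemma mul (hf : HP f x d) (hg : HP g x e) :
    HP (fun y => f y * g y) x (fun k => d k * g x + f x * e k) :=
  ⟨hf.1.mul hg.1, fun k => by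
    beta_reduce; rw [← hf.2 k, ← hg.2 k]; unfold pderiv; rw [fderiv_fun_mul hf.1 hg.1]; simp; ring⟩

lemma cmul (c : ℝ) (hf : HP f x d) : HP (fun y => c * f y) x (fun k => c * d k) :=
  ((const c x).mul hf).congr_d fun k => by simp

lemma comp {F : ℝ → ℝ} {F' : ℝ} (hf : HP f x d) (hF : HasDerivAt F F' (f x)) :
    HP (fun y => F (f y)) x (fun k => F' * d k) := by
  have h := hF.comp_hasFDerivAt x hf.1.hasFDerivAt
  refine ⟨h.differentiableAt, fun k => ?_⟩
  beta_reduce; rw [← hf.2 k]; unfold pderiv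
  have : fderiv ℝ (fun y => F (f y)) x = F' • fderiv ℝ f x := h.fderiv
  rw [this]; simp

lemma inv (hf : HP f x d) (h0 : f x ≠ 0) : HP (fun y => (f y)⁻¹) x (fun k => -(d k) / f x ^ 2) :=
  (hf.comp (hasDerivAt_inv h0)).congr_d fun k => by ring

lemma div (hf : HP f x d) (hg : HP g x e) (h0 : g x ≠ 0) :
    HP (fun y => f y / g y) x (fun k => (d k * g x - f x * e k) / g x ^ 2) :=
  ((hf.mul (hg.inv h0)).congr_f fun y => by rw [div_eq_mul_inv]).congr_d fun k => by
    field_simp; ring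

lemma sq (hf : HP f x d) : HP (fun y => f y ^ 2) x (fun k => 2 * f x * d k) :=
  ((hf.mul hf).congr_f fun y => by ring).congr_d fun k => by ring

lemma sum {ι : Type*} (s : Finset ι) {F : ι → EuclideanSpace ℝ (Fin m) → ℝ} {D : ι → Fin m → ℝ}
    (h : ∀ i ∈ s, HP (F i) x (D i)) : HP (fun y => ∑ i ∈ s, F i y) x (fun k => ∑ i ∈ s, D i k) := by
  classical
  induction s using Finset.induction_on with
  | empty => simpa using const 0 x
  | insert a s ha ih =>
    simp only [Finset.sum_insert ha]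
    exact (h a (Finset.mem_insert_self _ _)).add
      (ih fun i hi => h i (Finset.mem_insert_of_mem hi))

end HP

/-- Block data: `ε` is an indicator, `l` lives in the complementary block, `|l|² = 1 - h0²`. -/
structure Blk (ε l : Fin m → ℝ) (h0 : ℝ) : Prop where
  idem : ∀ i, ε i = 0 ∨ ε i = 1
  blk : ∀ i, ε i = 1 → l i = 0
  nrm : ∑ i, l i ^ 2 = 1 - h0 ^ 2

lemma Adm.toBlk {n : ℕ} {l : Fin (2 + n) → ℝ} {h0 : ℝ} (h : Adm n l h0) : Blk (e1 n) l h0 where
  idem i := by unfold e1; split_ifs <;> simp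
  blk i hi := h.blk i (by by_contra hc; simp [e1, hc] at hi)
  nrm := h.nrm

lemma nsq_nonneg {ε : Fin m → ℝ} (h : ∀ i, 0 ≤ ε i) (y : EuclideanSpace ℝ (Fin m)) : 0 ≤ nsq ε y :=
  Finset.sum_nonneg fun i _ => mul_nonneg (h i) (sq_nonneg _)

lemma nsq_zero (ε : Fin m → ℝ) : nsq ε 0 = 0 := by simp [nsq]

lemma rnd_zero (ε : Fin m → ℝ) : rnd ε 0 = 1 := by simp [rnd, nsq_zero]; norm_num

lemma hh_zero (ε l : Fin m → ℝ) (h0 : ℝ) : hh ε l h0 0 = h0 := by simp [hh, nsq_zero]

lemma HP_nsq (ε : Fin m → ℝ) (x : EuclideanSpace ℝ (Fin m)) :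
    HP (nsq ε) x (fun k => 2 * ε k * x k) := by
  refine (HP.sum Finset.univ fun i _ => ((HP.coord i x).sq.cmul (ε i))).congr_d fun k => ?_
  simp [dl]; ring

lemma HP_lin (l : Fin m → ℝ) (x : EuclideanSpace ℝ (Fin m)) :
    HP (fun y => ∑ i, l i * y i) x l := by
  refine (HP.sum Finset.univ fun i _ => ((HP.coord i x).cmul (l i))).congr_d fun k => ?_
  simp [dl]

lemma contDiff_nsq (ε : Fin m → ℝ) : ContDiff ℝ ∞ (nsq ε) := by
  unfold nsq; fun_prop

namespace Blk

variable {ε l : Fin m → ℝ} {h0 : ℝ}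

lemma e_nonneg (H : Blk ε l h0) (i : Fin m) : 0 ≤ ε i := by rcases H.idem i with h | h <;> simp [h]
lemma co_nonneg (H : Blk ε l h0) (i : Fin m) : 0 ≤ co ε i := by
  rcases H.idem i with h | h <;> simp [co, h]
lemma N1_pos (H : Blk ε l h0) (y : EuclideanSpace ℝ (Fin m)) : 0 < nsq ε y + 4 := by
  have := nsq_nonneg H.e_nonneg y; linarith
lemma N2_pos (H : Blk ε l h0) (y : EuclideanSpace ℝ (Fin m)) : 0 < nsq (co ε) y + 4 := by
  have := nsq_nonneg H.co_nonneg y; linarith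
lemma rnd1_pos (H : Blk ε l h0) (y : EuclideanSpace ℝ (Fin m)) : 0 < rnd ε y := by
  have := H.N1_pos y; unfold rnd; positivity
lemma rnd2_pos (H : Blk ε l h0) (y : EuclideanSpace ℝ (Fin m)) : 0 < rnd (co ε) y := by
  have := H.N2_pos y; unfold rnd; positivity
lemma co_l (H : Blk ε l h0) (i : Fin m) : co ε i * l i = l i := by
  rcases H.idem i with h | h
  · simp [co, h]
  · simp [H.blk i h]
lemma e_l (H : Blk ε l h0) (i : Fin m) : ε i * l i = 0 := by
  rcases H.idem i with h | h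
  · simp [h]
  · simp [H.blk i h]
lemma co_co (H : Blk ε l h0) (i : Fin m) : co ε i * co ε i = co ε i := by
  rcases H.idem i with h | h <;> simp [co, h]

lemma contDiff_rnd1 (H : Blk ε l h0) : ContDiff ℝ ∞ (rnd ε) :=
  contDiff_const.div (((contDiff_nsq ε).add contDiff_const).pow 2)
    fun y => (pow_pos (H.N1_pos y) 2).ne'
lemma contDiff_rnd2 (H : Blk ε l h0) : ContDiff ℝ ∞ (rnd (co ε)) :=
  contDiff_const.div (((contDiff_nsq _).add contDiff_const).pow 2)
    fun y => (pow_pos (H.N2_pos y) 2).ne'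
lemma contDiff_hh (H : Blk ε l h0) : ContDiff ℝ ∞ (hh ε l h0) := by
  refine ContDiff.div ?_ ((contDiff_nsq _).add contDiff_const) fun y => (H.N2_pos y).ne'
  refine ContDiff.add ?_ ((contDiff_const.sub (contDiff_nsq _)).mul contDiff_const)
  fun_prop

end Blk

/-- The gradient of the height function. -/
def eta (ε l : Fin m → ℝ) (h0 : ℝ) (y : EuclideanSpace ℝ (Fin m)) (i : Fin m) : ℝ :=
  (4 * l i - 2 * co ε i * y i * (h0 + hh ε l h0 y)) / (nsq (co ε) y + 4)

/-- Half the logarithmic gradient of the round conformal factors. -/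
def lam (ε : Fin m → ℝ) (y : EuclideanSpace ℝ (Fin m)) (i : Fin m) : ℝ :=
  -2 * y i * (ε i / (nsq ε y + 4) + co ε i / (nsq (co ε) y + 4))

lemma eta_zero (ε l : Fin m → ℝ) (h0 : ℝ) (i : Fin m) : eta ε l h0 0 i = l i := by
  simp [eta, nsq_zero]

lemma lam_zero (ε : Fin m → ℝ) (i : Fin m) : lam ε 0 i = 0 := by simp [lam]

namespace Blk

variable {ε l : Fin m → ℝ} {h0 : ℝ}

lemma HP_hh (H : Blk ε l h0) (y : EuclideanSpace ℝ (Fin m)) : HP (hh ε l h0) y (eta ε l h0 y) := by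
  have hN := (H.N2_pos y).ne'
  have h1 := (((HP_lin l y).cmul 4).add (((HP.const 4 y).sub (HP_nsq (co ε) y)).mul
    (HP.const h0 y))).div ((HP_nsq (co ε) y).add (HP.const 4 y)) hN
  refine h1.congr_d fun k => ?_
  simp only [eta, hh]
  field_simp
  ring

lemma pderiv_hh (H : Blk ε l h0) (y : EuclideanSpace ℝ (Fin m)) (i : Fin m) :
    pderiv i (hh ε l h0) y = eta ε l h0 y i := (H.HP_hh y).2 i

lemma eta_e (H : Blk ε l h0) (y : EuclideanSpace ℝ (Fin m)) {i : Fin m} (hi : ε i = 1) :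
    eta ε l h0 y i = 0 := by simp [eta, co, hi, H.blk i hi]

lemma contDiff_eta (H : Blk ε l h0) (i : Fin m) : ContDiff ℝ ∞ (fun y => eta ε l h0 y i) := by
  refine ContDiff.div ?_ ((contDiff_nsq _).add contDiff_const) fun y => (H.N2_pos y).ne'
  refine contDiff_const.sub (ContDiff.mul ?_ (contDiff_const.add H.contDiff_hh))
  fun_prop

lemma lin_eq (H : Blk ε l h0) (y : EuclideanSpace ℝ (Fin m)) :
    4 * ∑ i, l i * y i = hh ε l h0 y * (nsq (co ε) y + 4) - (4 - nsq (co ε) y) * h0 := by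
  have hN := (H.N2_pos y).ne'
  simp only [hh]; field_simp; ring

/-- `|∇h|² = 1 - h²` on the round sphere. -/
lemma sum_eta_sq (H : Blk ε l h0) (y : EuclideanSpace ℝ (Fin m)) :
    ∑ k, eta ε l h0 y k ^ 2 = rnd (co ε) y * (1 - hh ε l h0 y ^ 2) := by
  have hN := (H.N2_pos y).ne'
  set s := h0 + hh ε l h0 y with hs
  have h1 : ∀ k, eta ε l h0 y k ^ 2 = (16 * l k ^ 2 - 16 * s * (l k * y k)
      + 4 * s ^ 2 * (co ε k * y k ^ 2)) / (nsq (co ε) y + 4) ^ 2 := by
    intro k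
    simp only [eta, ← hs, div_pow]
    congr 1
    linear_combination (-16 * s * y k) * H.co_l k + (4 * s ^ 2 * y k ^ 2) * H.co_co k
  simp only [h1, ← Finset.sum_div, Finset.sum_add_distrib, Finset.sum_sub_distrib,
    ← Finset.mul_sum, H.nrm]
  have h2 := H.lin_eq y
  have h3 : ∑ k, co ε k * y k ^ 2 = nsq (co ε) y := rfl
  rw [h3, rnd, div_mul_eq_mul_div]
  congr 1
  rw [hs]
  linear_combination (-4 * (h0 + hh ε l h0 y)) * h2

lemma hh_mem (H : Blk ε l h0) (y : EuclideanSpace ℝ (Fin m)) : hh ε l h0 y ∈ Icc (-1 : ℝ) 1 := by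
  have h1 := H.sum_eta_sq y
  have h2 : 0 ≤ ∑ k, eta ε l h0 y k ^ 2 := Finset.sum_nonneg fun _ _ => sq_nonneg _
  have h3 : 0 ≤ 1 - hh ε l h0 y ^ 2 := by
    rw [h1] at h2; exact le_of_mul_le_mul_left (by simpa using h2) (H.rnd2_pos y)
  constructor <;> nlinarith

lemma h0_mem (H : Blk ε l h0) : h0 ∈ Icc (-1 : ℝ) 1 := by
  simpa [hh_zero] using H.hh_mem 0

lemma HP_rnd1 (H : Blk ε l h0) (y : EuclideanSpace ℝ (Fin m)) :
    HP (rnd ε) y (fun k => 2 * rnd ε y * (ε k * lam ε y k)) := by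
  have hN := (H.N1_pos y).ne'
  have hN2 := (H.N2_pos y).ne'
  have h1 := (HP.const 16 y).div ((HP_nsq ε y).add (HP.const 4 y)).sq (pow_ne_zero 2 hN)
  refine h1.congr_d fun k => ?_
  simp only [rnd, lam, co]
  rcases H.idem k with h | h <;> simp only [h] <;> field_simp <;> ring

lemma HP_rnd2 (H : Blk ε l h0) (y : EuclideanSpace ℝ (Fin m)) :
    HP (rnd (co ε)) y (fun k => 2 * rnd (co ε) y * (co ε k * lam ε y k)) := by
  have hN := (H.N1_pos y).ne'
  have hN2 := (H.N2_pos y).ne'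
  have h1 := (HP.const 16 y).div ((HP_nsq (co ε) y).add (HP.const 4 y)).sq (pow_ne_zero 2 hN2)
  refine h1.congr_d fun k => ?_
  have hc : co ε k = 1 - ε k := rfl
  simp only [rnd, lam, hc]
  rcases H.idem k with h | h <;> simp only [h] <;> field_simp <;> ring

/-- `Σ co_k λ_k η_k`. -/
lemma sum_lam_eta (H : Blk ε l h0) (y : EuclideanSpace ℝ (Fin m)) :
    ∑ k, lam ε y k * eta ε l h0 y k =
      2 * (h0 + hh ε l h0 y) / (nsq (co ε) y + 4) - hh ε l h0 y * rnd (co ε) y := by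
  have hN := (H.N2_pos y).ne'
  have hN1 := (H.N1_pos y).ne'
  set s := h0 + hh ε l h0 y with hs
  have h1 : ∀ k, lam ε y k * eta ε l h0 y k = (-8 * (l k * y k)
      + 4 * s * (co ε k * y k ^ 2)) / (nsq (co ε) y + 4) ^ 2 := by
    intro k
    have hc : co ε k = 1 - ε k := rfl
    simp only [eta, lam, ← hs, hc]
    rcases H.idem k with h | h
    · simp only [h]; field_simp; ring
    · simp [h, H.blk k h]
  simp only [h1, ← Finset.sum_div, Finset.sum_add_distrib, ← Finset.mul_sum]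
  have h2 := H.lin_eq y
  have h3 : ∑ k, co ε k * y k ^ 2 = nsq (co ε) y := rfl
  rw [h3, rnd]
  field_simp
  rw [hs]
  linear_combination (-2) * h2

/-- The Hessian of the height function. -/
lemma HP_eta (H : Blk ε l h0) (y : EuclideanSpace ℝ (Fin m)) (i : Fin m) :
    HP (fun y => eta ε l h0 y i) y (fun k => -(2 * (h0 + hh ε l h0 y) / (nsq (co ε) y + 4)) *
      (co ε i * dl i k) + co ε i * lam ε y i * eta ε l h0 y k
      + co ε k * lam ε y k * eta ε l h0 y i) := by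
  have hN := (H.N2_pos y).ne'
  have hN1 := (H.N1_pos y).ne'
  have h1 := ((HP.const (4 * l i) y).sub (((HP.coord i y).cmul (2 * co ε i)).mul
    ((HP.const h0 y).add (H.HP_hh y)))).div ((HP_nsq (co ε) y).add (HP.const 4 y)) hN
  refine h1.congr_d fun k => ?_
  have e1 : co ε i * lam ε y i = -2 * co ε i * y i / (nsq (co ε) y + 4) := by
    have hc : co ε i = 1 - ε i := rfl
    simp only [lam, hc]
    rcases H.idem i with h | h <;> simp only [h] <;> field_simp <;> ring
  have e2 : co ε k * lam ε y k = -2 * co ε k * y k / (nsq (co ε) y + 4) := by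
    have hc : co ε k = 1 - ε k := rfl
    simp only [lam, hc]
    rcases H.idem k with h | h <;> simp only [h] <;> field_simp <;> ring
  rw [e1, e2]
  have e3 : eta ε l h0 y i = (4 * l i - 2 * co ε i * y i * (h0 + hh ε l h0 y)) /
    (nsq (co ε) y + 4) := rfl
  rw [e3]
  field_simp
  ring

lemma HP_lam_zero (H : Blk ε l h0) (i : Fin m) :
    HP (fun y => lam ε y i) 0 (fun k => -(1 / 2) * dl i k) := by
  have hN := (H.N2_pos 0).ne'
  have hN1 := (H.N1_pos 0).ne'
  have h1 := ((HP.coord i 0).cmul (-2)).mul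
    (((HP.const (ε i) 0).div ((HP_nsq ε 0).add (HP.const 4 0)) hN1).add
      ((HP.const (co ε i) 0).div ((HP_nsq (co ε) 0).add (HP.const 4 0)) hN))
  refine h1.congr_d fun k => ?_
  simp [nsq_zero, co]
  ring

end Blk

end Crest.Agent.N207.S.Geo

end
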