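import Crest.Agent.N207.S.G1a
/-!
Row 207 / S0320 geometry, G1b: inverse and Christoffel symbols of the chart metric `Gm`.
-/

set_option autoImplicit false
open scoped ContDiff Topology
open Set Filter Crest.GeometryTopology.CoordMetric

noncomputable section

namespace Crest.Agent.N207.S.Geo

variable {m : ℕ}

lemma christoffel_of_inv (g : MetricField m) (y : EuclideanSpace ℝ (Fin m))
    (Gi : Matrix (Fin m) (Fin m) ℝ) (hG : g y * Gi = 1) (Γ : Fin m → ℝ) (i j : Fin m)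
    (h : ∀ l, ∑ a, g y l a * Γ a = (1 / 2) * (pderiv i (fun y => g y j l) y +
      pderiv j (fun y => g y i l) y - pderiv l (fun y => g y i j) y)) (k : Fin m) :
    christoffel g y k i j = Γ k := by
  have h1 : (g y)⁻¹ = Gi := Matrix.inv_eq_right_inv hG
  have h2 : Gi * g y = 1 := mul_eq_one_comm.1 hG
  unfold christoffel inverseField
  rw [h1, Finset.mul_sum]
  have h3 : ∀ l, (1 / 2) * (Gi k l * (pderiv i (fun y => g y j l) y +
      pderiv j (fun y => g y i l) y - pderiv l (fun y => g y i j) y)) =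
      ∑ a, Gi k l * g y l a * Γ a := by
    intro l
    rw [mul_left_comm, ← h l, Finset.mul_sum]
    exact Finset.sum_congr rfl fun a _ => by ring
  simp only [h3]
  rw [Finset.sum_comm]
  have h4 : ∀ a, ∑ l, Gi k l * g y l a * Γ a = dl k a * Γ a := by
    intro a
    rw [← Finset.sum_mul, ← Matrix.mul_apply, h2, Matrix.one_apply]; rfl
  simp only [h4, sum_dl']

/-- `S = A + B (1-h²)`. -/
def SS (A B : ℝ → ℝ) : ℝ → ℝ := fun h => A h + B h * (1 - h ^ 2)
/-- `F'/(2F)`. -/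
def cw (F : ℝ → ℝ) : ℝ → ℝ := fun h => deriv F h / (2 * F h)
/-- `-W'/(2S)`. -/
def cb1 (W A B : ℝ → ℝ) : ℝ → ℝ := fun h => -deriv W h / (2 * SS A B h)
/-- `-(A'+2Bh)/(2S)`. -/
def cb (A B : ℝ → ℝ) : ℝ → ℝ := fun h => -(deriv A h + 2 * B h * h) / (2 * SS A B h)
/-- `(B'/2 - A'B/A)/S`. -/
def cc (A B : ℝ → ℝ) : ℝ → ℝ := fun h => (deriv B h / 2 - deriv A h * B h / A h) / SS A B h

/-- Same-block indicator. -/
def sb (ε : Fin m → ℝ) (i j : Fin m) : ℝ := ε i * ε j + co ε i * co ε j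

/-- Profile hypotheses at a fixed time. -/
structure Prof (W A B : ℝ → ℝ) : Prop where
  dW : ∀ h ∈ Icc (-1 : ℝ) 1, DifferentiableAt ℝ W h
  dA : ∀ h ∈ Icc (-1 : ℝ) 1, DifferentiableAt ℝ A h
  dB : ∀ h ∈ Icc (-1 : ℝ) 1, DifferentiableAt ℝ B h
  pW : ∀ h ∈ Icc (-1 : ℝ) 1, 0 < W h
  pA : ∀ h ∈ Icc (-1 : ℝ) 1, 0 < A h
  pS : ∀ h ∈ Icc (-1 : ℝ) 1, 0 < SS A B h

section

variable (ε l : Fin m → ℝ) (h0 : ℝ) (W A B : ℝ → ℝ) (y : EuclideanSpace ℝ (Fin m))

/-- Diagonal part of `Gm`. -/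
def Dg (i : Fin m) : ℝ :=
  ε i * (W (hh ε l h0 y) * rnd ε y) + co ε i * (A (hh ε l h0 y) * rnd (co ε) y)

/-- Derivative of the diagonal part. -/
def dDg (i k : Fin m) : ℝ :=
  ε i * (deriv W (hh ε l h0 y) * eta ε l h0 y k * rnd ε y +
      W (hh ε l h0 y) * (2 * rnd ε y * (ε k * lam ε y k))) +
    co ε i * (deriv A (hh ε l h0 y) * eta ε l h0 y k * rnd (co ε) y +
      A (hh ε l h0 y) * (2 * rnd (co ε) y * (co ε k * lam ε y k)))

/-- Coordinate Hessian of `hh`. -/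
def Hs (i k : Fin m) : ℝ :=
  -(2 * (h0 + hh ε l h0 y) / (nsq (co ε) y + 4)) * (co ε i * dl i k) +
    co ε i * lam ε y i * eta ε l h0 y k + co ε k * lam ε y k * eta ε l h0 y i

/-- The Christoffel symbols of `Gm` in closed form. -/
def Gam (k i j : Fin m) : ℝ :=
  dl k i * (sb ε i j * lam ε y j) + dl k j * (sb ε i j * lam ε y i)
    - dl i j * (sb ε i k * lam ε y k)
    + (ε k * cw W (hh ε l h0 y) + co ε k * cw A (hh ε l h0 y)) *
      (eta ε l h0 y i * dl k j + eta ε l h0 y j * dl k i)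
    + dl i j * ((ε i * (cb1 W A B (hh ε l h0 y) * (rnd ε y / rnd (co ε) y)) +
      co ε i * cb A B (hh ε l h0 y)) * eta ε l h0 y k)
    + cc A B (hh ε l h0 y) * (eta ε l h0 y i * eta ε l h0 y j * eta ε l h0 y k / rnd (co ε) y)

/-- The inverse of `Gm`. -/
def Ginv : Matrix (Fin m) (Fin m) ℝ := Matrix.of fun i j =>
  dl i j * (Dg ε l h0 W A y i)⁻¹ - B (hh ε l h0 y) /
    (A (hh ε l h0 y) * SS A B (hh ε l h0 y) * rnd (co ε) y ^ 2) * (eta ε l h0 y i * eta ε l h0 y j)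

end

namespace Blk

variable {ε l : Fin m → ℝ} {h0 : ℝ} {W A B : ℝ → ℝ}

lemma Gm_apply (H : Blk ε l h0) (W A B : ℝ → ℝ) (y : EuclideanSpace ℝ (Fin m)) (i j : Fin m) :
    Gm ε l h0 W A B y i j = dl i j * Dg ε l h0 W A y i +
      B (hh ε l h0 y) * (eta ε l h0 y i * eta ε l h0 y j) := by
  simp only [Gm, Matrix.of_apply, H.pderiv_hh, dl, Dg]
  split_ifs <;> simp

lemma Dg_pos (H : Blk ε l h0) (P : Prof W A B) (y : EuclideanSpace ℝ (Fin m)) (i : Fin m) :
    0 < Dg ε l h0 W A y i := by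
  have h1 := P.pW _ (H.hh_mem y)
  have h2 := P.pA _ (H.hh_mem y)
  have h3 := H.rnd1_pos y
  have h4 := H.rnd2_pos y
  rcases H.idem i with h | h <;> simp only [Dg, co, h] <;> norm_num <;> positivity

lemma Dg_eta (H : Blk ε l h0) (W A : ℝ → ℝ) (y : EuclideanSpace ℝ (Fin m)) (i : Fin m) :
    Dg ε l h0 W A y i * eta ε l h0 y i = A (hh ε l h0 y) * rnd (co ε) y * eta ε l h0 y i := by
  rcases H.idem i with h | h
  · simp [Dg, co, h]
  · simp [H.eta_e y h]

lemma co_eta (H : Blk ε l h0) (y : EuclideanSpace ℝ (Fin m)) (i : Fin m) :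
    co ε i * eta ε l h0 y i = eta ε l h0 y i := by
  rcases H.idem i with h | h
  · simp [co, h]
  · simp [H.eta_e y h]

lemma e_eta (H : Blk ε l h0) (y : EuclideanSpace ℝ (Fin m)) (i : Fin m) :
    ε i * eta ε l h0 y i = 0 := by
  rcases H.idem i with h | h
  · simp [h]
  · simp [H.eta_e y h]

lemma Gm_mul_Ginv (H : Blk ε l h0) (P : Prof W A B) (y : EuclideanSpace ℝ (Fin m)) :
    Gm ε l h0 W A B y * Ginv ε l h0 W A B y = 1 := by
  ext i j
  have hA := (P.pA _ (H.hh_mem y)).ne'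
  have hS := (P.pS _ (H.hh_mem y)).ne'
  have h2 := (H.rnd2_pos y).ne'
  have hD := fun i => (H.Dg_pos P y i).ne'
  set κ := B (hh ε l h0 y) / (A (hh ε l h0 y) * SS A B (hh ε l h0 y) * rnd (co ε) y ^ 2) with hκ
  have h1 : ∀ a, Gm ε l h0 W A B y i a * Ginv ε l h0 W A B y a j =
      dl i a * (Dg ε l h0 W A y i * (dl a j * (Dg ε l h0 W A y a)⁻¹ -
        κ * (eta ε l h0 y a * eta ε l h0 y j))) +
      dl a j * (B (hh ε l h0 y) * eta ε l h0 y i * (eta ε l h0 y a * (Dg ε l h0 W A y a)⁻¹))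
      - B (hh ε l h0 y) * κ * eta ε l h0 y i * eta ε l h0 y j * eta ε l h0 y a ^ 2 := by
    intro a
    rw [H.Gm_apply]; simp only [Ginv, Matrix.of_apply, ← hκ]; ring
  have h5 : eta ε l h0 y j * (Dg ε l h0 W A y j)⁻¹ =
      eta ε l h0 y j / (A (hh ε l h0 y) * rnd (co ε) y) := by
    have := H.Dg_eta W A y j
    have := hD j
    field_simp
    linarith
  rw [Matrix.mul_apply]
  simp only [h1, Finset.sum_sub_distrib, Finset.sum_add_distrib, sum_dl, sum_dl', ← Finset.mul_sum,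
    H.sum_eta_sq, h5]
  have h6 : Dg ε l h0 W A y i * (dl i j * (Dg ε l h0 W A y i)⁻¹ -
      κ * (eta ε l h0 y i * eta ε l h0 y j)) = dl i j -
      κ * (A (hh ε l h0 y) * rnd (co ε) y * eta ε l h0 y i) * eta ε l h0 y j := by
    rw [← H.Dg_eta W A y i]; have := hD i; field_simp
  rw [h6, Matrix.one_apply]
  have h7 : (if i = j then (1 : ℝ) else 0) = dl i j := rfl
  rw [h7, hκ]
  have hS' : SS A B (hh ε l h0 y) = A (hh ε l h0 y) + B (hh ε l h0 y) * (1 - hh ε l h0 y ^ 2) := rfl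
  rw [hS'] at hS ⊢
  field_simp
  ring

lemma HP_Dg (H : Blk ε l h0) (P : Prof W A B) (y : EuclideanSpace ℝ (Fin m)) (i : Fin m) :
    HP (fun y => Dg ε l h0 W A y i) y (dDg ε l h0 W A y i) :=
  (((((H.HP_hh y).comp (P.dW _ (H.hh_mem y)).hasDerivAt).mul (H.HP_rnd1 y)).cmul (ε i)).add
    ((((H.HP_hh y).comp (P.dA _ (H.hh_mem y)).hasDerivAt).mul (H.HP_rnd2 y)).cmul (co ε i)))

lemma pderiv_Gm (H : Blk ε l h0) (P : Prof W A B) (y : EuclideanSpace ℝ (Fin m)) (i j k : Fin m) :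
    pderiv k (fun y => Gm ε l h0 W A B y i j) y = dl i j * dDg ε l h0 W A y i k +
      (deriv B (hh ε l h0 y) * eta ε l h0 y k * (eta ε l h0 y i * eta ε l h0 y j) +
        B (hh ε l h0 y) * (Hs ε l h0 y i k * eta ε l h0 y j + eta ε l h0 y i * Hs ε l h0 y j k)) :=
  ((((H.HP_Dg P y i).cmul (dl i j)).add (((H.HP_hh y).comp (P.dB _ (H.hh_mem y)).hasDerivAt).mul
    ((H.HP_eta y i).mul (H.HP_eta y j)))).congr_f fun y => H.Gm_apply W A B y i j).2 k

lemma sb_eta (H : Blk ε l h0) (y : EuclideanSpace ℝ (Fin m)) (i k : Fin m) :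
    sb ε i k * eta ε l h0 y k = co ε i * eta ε l h0 y k := by
  unfold sb
  linear_combination ε i * H.e_eta y k + co ε i * H.co_eta y k

lemma sum_eta_Gam (H : Blk ε l h0) (W A B : ℝ → ℝ) (y : EuclideanSpace ℝ (Fin m)) (i j : Fin m) :
    ∑ k, eta ε l h0 y k * Gam ε l h0 W A B y k i j =
      Hs ε l h0 y i j + hh ε l h0 y * rnd (co ε) y * (co ε i * dl i j)
      + 2 * cw A (hh ε l h0 y) * (eta ε l h0 y i * eta ε l h0 y j)
      + dl i j * ((ε i * (cb1 W A B (hh ε l h0 y) * rnd ε y) +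
        co ε i * (cb A B (hh ε l h0 y) * rnd (co ε) y)) * (1 - hh ε l h0 y ^ 2))
      + cc A B (hh ε l h0 y) * (eta ε l h0 y i * eta ε l h0 y j) * (1 - hh ε l h0 y ^ 2) := by
  have h2 := (H.rnd2_pos y).ne'
  have h1 : ∀ k, eta ε l h0 y k * Gam ε l h0 W A B y k i j =
      dl k i * (eta ε l h0 y k * (sb ε i j * lam ε y j + cw A (hh ε l h0 y) * eta ε l h0 y j))
      + dl k j * (eta ε l h0 y k * (sb ε i j * lam ε y i + cw A (hh ε l h0 y) * eta ε l h0 y i))
      - dl i j * co ε i * (lam ε y k * eta ε l h0 y k)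
      + (dl i j * (ε i * (cb1 W A B (hh ε l h0 y) * (rnd ε y / rnd (co ε) y)) +
          co ε i * cb A B (hh ε l h0 y)) +
        cc A B (hh ε l h0 y) * (eta ε l h0 y i * eta ε l h0 y j / rnd (co ε) y)) *
          eta ε l h0 y k ^ 2 := by
    intro k
    unfold Gam
    linear_combination (-(dl i j * lam ε y k)) * H.sb_eta y i k
      + (cw W (hh ε l h0 y) * (eta ε l h0 y i * dl k j + eta ε l h0 y j * dl k i)) * H.e_eta y k
      + (cw A (hh ε l h0 y) * (eta ε l h0 y i * dl k j + eta ε l h0 y j * dl k i)) * H.co_eta y k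
  simp only [h1, Finset.sum_sub_distrib, Finset.sum_add_distrib, sum_dl, ← Finset.mul_sum,
    H.sum_eta_sq, H.sum_lam_eta]
  have e1 := H.sb_eta y i j
  have e2 := H.sb_eta y j i
  have e3 : sb ε j i = sb ε i j := by unfold sb; ring
  rw [e3] at e2
  unfold Hs
  have e4 : rnd (co ε) y * (rnd (co ε) y)⁻¹ = 1 := mul_inv_cancel₀ h2
  simp only [div_eq_mul_inv]
  linear_combination lam ε y i * e1 + lam ε y j * e2 +
    (dl i j * ε i * cb1 W A B (hh ε l h0 y) * rnd ε y * (1 - hh ε l h0 y ^ 2) +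
      cc A B (hh ε l h0 y) * (eta ε l h0 y i * eta ε l h0 y j) * (1 - hh ε l h0 y ^ 2)) * e4

/-- The diagonal part of `G Γ`. -/
lemma Dg_Gam (H : Blk ε l h0) (P : Prof W A B) (y : EuclideanSpace ℝ (Fin m)) (k i j : Fin m) :
    Dg ε l h0 W A y k * Gam ε l h0 W A B y k i j =
      (1 / 2) * (dl j k * dDg ε l h0 W A y j i + dl i k * dDg ε l h0 W A y i j
        - dl i j * dDg ε l h0 W A y i k)
      + dl i j * (ε i * rnd ε y * (deriv W (hh ε l h0 y) / 2 +
          A (hh ε l h0 y) * cb1 W A B (hh ε l h0 y)) +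
        co ε i * rnd (co ε) y * (deriv A (hh ε l h0 y) / 2 +
          A (hh ε l h0 y) * cb A B (hh ε l h0 y))) * eta ε l h0 y k
      + A (hh ε l h0 y) * cc A B (hh ε l h0 y) *
        (eta ε l h0 y i * eta ε l h0 y j * eta ε l h0 y k) := by
  have hA := (P.pA _ (H.hh_mem y)).ne'
  have hW := (P.pW _ (H.hh_mem y)).ne'
  have h2 := (H.rnd2_pos y).ne'
  have eD := H.Dg_eta W A y k
  -- the three `δ`-terms
  have t1 : ∀ a b : Fin m, dl k a * (Dg ε l h0 W A y k * (sb ε a b * lam ε y b +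
      (ε k * cw W (hh ε l h0 y) + co ε k * cw A (hh ε l h0 y)) * eta ε l h0 y b)) =
      (1 / 2) * (dl a k * dDg ε l h0 W A y a b) := by
    intro a b
    by_cases hk : k = a
    · subst hk
      simp only [dl_self, Dg, dDg, sb, cw, co]
      rcases H.idem k with h | h <;> simp only [h] <;> field_simp <;> ring
    · rw [dl_ne hk, dl_ne (Ne.symm hk)]; simp
  have t2 : Dg ε l h0 W A y k * (sb ε i k * lam ε y k) = (1 / 2) * dDg ε l h0 W A y i k -
      (ε i * rnd ε y * (deriv W (hh ε l h0 y) / 2) +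
        co ε i * rnd (co ε) y * (deriv A (hh ε l h0 y) / 2)) * eta ε l h0 y k := by
    simp only [Dg, dDg, sb, co]
    rcases H.idem k with h | h <;> rcases H.idem i with h' | h' <;> simp only [h, h'] <;> ring
  have t1a := t1 i j
  have t1b := t1 j i
  have e3 : sb ε j i = sb ε i j := by unfold sb; ring
  rw [e3] at t1b
  have e4 : rnd (co ε) y * (rnd (co ε) y)⁻¹ = 1 := mul_inv_cancel₀ h2
  unfold Gam
  simp only [div_eq_mul_inv] at *
  linear_combination t1a + t1b - dl i j * t2 +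
    (dl i j * (ε i * (cb1 W A B (hh ε l h0 y) * (rnd ε y * (rnd (co ε) y)⁻¹)) +
      co ε i * cb A B (hh ε l h0 y)) + cc A B (hh ε l h0 y) *
        (eta ε l h0 y i * eta ε l h0 y j * (rnd (co ε) y)⁻¹)) * eD +
    (dl i j * ε i * cb1 W A B (hh ε l h0 y) * rnd ε y * A (hh ε l h0 y) * eta ε l h0 y k +
      A (hh ε l h0 y) * cc A B (hh ε l h0 y) *
        (eta ε l h0 y i * eta ε l h0 y j * eta ε l h0 y k)) * e4

lemma Hs_symm (ε l : Fin m → ℝ) (h0 : ℝ) (y : EuclideanSpace ℝ (Fin m)) (i j : Fin m) :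
    Hs ε l h0 y i j = Hs ε l h0 y j i := by
  unfold Hs
  by_cases h : i = j
  · subst h; ring
  · rw [dl_ne h, dl_ne (Ne.symm h)]; ring

/-- The Christoffel symbols of `Gm` at every point of the chart. -/
theorem christoffel_Gm (H : Blk ε l h0) (P : Prof W A B) (y : EuclideanSpace ℝ (Fin m))
    (k i j : Fin m) : christoffel (Gm ε l h0 W A B) y k i j = Gam ε l h0 W A B y k i j := by
  refine christoffel_of_inv _ y _ (H.Gm_mul_Ginv P y) (fun k => Gam ε l h0 W A B y k i j) i j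
    (fun k => ?_) k
  have hA := (P.pA _ (H.hh_mem y)).ne'
  have hS := (P.pS _ (H.hh_mem y)).ne'
  have h1 : ∀ a, Gm ε l h0 W A B y k a * Gam ε l h0 W A B y a i j =
      dl k a * (Dg ε l h0 W A y k * Gam ε l h0 W A B y a i j) + B (hh ε l h0 y) * eta ε l h0 y k *
        (eta ε l h0 y a * Gam ε l h0 W A B y a i j) := by
    intro a; rw [H.Gm_apply]; ring
  simp only [h1, Finset.sum_add_distrib, sum_dl', ← Finset.mul_sum, H.sum_eta_Gam, H.Dg_Gam P,
    H.pderiv_Gm P]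
  have hS' : SS A B (hh ε l h0 y) = A (hh ε l h0 y) + B (hh ε l h0 y) * (1 - hh ε l h0 y ^ 2) := rfl
  have c1 : cb1 W A B (hh ε l h0 y) * SS A B (hh ε l h0 y) = -deriv W (hh ε l h0 y) / 2 := by
    simp only [cb1]; field_simp
  have c2 : cb A B (hh ε l h0 y) * SS A B (hh ε l h0 y) =
      -(deriv A (hh ε l h0 y) + 2 * B (hh ε l h0 y) * hh ε l h0 y) / 2 := by
    simp only [cb]; field_simp
  have c3 : cc A B (hh ε l h0 y) * SS A B (hh ε l h0 y) =
      deriv B (hh ε l h0 y) / 2 - 2 * cw A (hh ε l h0 y) * B (hh ε l h0 y) := by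
    simp only [cc, cw]; field_simp
  rw [hS'] at c1 c2 c3
  rw [Hs_symm ε l h0 y j i, Hs_symm ε l h0 y k i, Hs_symm ε l h0 y k j]
  linear_combination (dl i j * ε i * rnd ε y * eta ε l h0 y k) * c1
    + (dl i j * co ε i * rnd (co ε) y * eta ε l h0 y k) * c2
    + (eta ε l h0 y i * eta ε l h0 y j * eta ε l h0 y k) * c3

end Blk

end Crest.Agent.N207.S.Geo

end
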