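import Crest.Agent.N207.S.G1b
/-!
Row 207 / S0320 geometry, G1c: the Ricci tensor of `Gm` at the chart centre.
-/

set_option autoImplicit false
open scoped ContDiff Topology
open Set Filter Crest.GeometryTopology.CoordMetric

noncomputable section

namespace Crest.Agent.N207.S.Geo

variable {m : ℕ}

/-- Christoffel symbols at the centre. -/
def G0 (ε l : Fin m → ℝ) (w a b1 b c : ℝ) (k i j : Fin m) : ℝ :=
  (ε k * w + co ε k * a) * (l i * dl k j + l j * dl k i) + dl i j * ((ε i * b1 + co ε i * b) * l k)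
    + c * (l i * l j * l k)

/-- First derivatives `∂_p Γ^k_ij` at the centre. -/
def DG (ε l : Fin m → ℝ) (h0 w a b1 b c w' a' b1' b' c' : ℝ) (p k i j : Fin m) : ℝ :=
  -(1 / 2) * (dl k i * (sb ε i j * dl j p) + dl k j * (sb ε i j * dl i p)
      - dl i j * (sb ε i k * dl k p))
    + (ε k * w' + co ε k * a') * l p * (l i * dl k j + l j * dl k i)
    - (ε k * w + co ε k * a) * h0 * (co ε i * dl i p * dl k j + co ε j * dl j p * dl k i)
    + dl i j * ((ε i * b1' + co ε i * b') * l p * l k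
      - (ε i * b1 + co ε i * b) * h0 * (co ε k * dl k p))
    + c' * (l p * l i * l j * l k)
    - c * h0 * (co ε i * dl i p * l j * l k + co ε j * dl j p * l i * l k
      + co ε k * dl k p * l i * l j)

/-- trace coefficient. -/
def tr (n h w a b c : ℝ) : ℝ := a + 2 * w + n * a + b + c * (1 - h ^ 2)

/-- Coefficient of the first block in `Ric`. -/
def r1 (n h w a b1 b c b1' : ℝ) : ℝ :=
  1 + b1' * (1 - h ^ 2) - n * b1 * h + b1 * (1 - h ^ 2) * (tr n h w a b c - 2 * w)

/-- Coefficient of the second block in `Ric`. -/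
def r2 (n h w a b c b' : ℝ) : ℝ :=
  -1 + n - 2 * a * h + b' * (1 - h ^ 2) - n * b * h + h * tr n h w a b c
    + tr n h w a b c * b * (1 - h ^ 2) - 2 * a * b * (1 - h ^ 2)

/-- Coefficient of `dh²` in `Ric`. -/
def r3 (n h w a b c w' a' b' : ℝ) : ℝ :=
  a' - c * h * n - 2 * w' - n * a' - b' + tr n h w a b c * (2 * a + c * (1 - h ^ 2))
    - (a * a + 2 * w * w + n * a * a + a * b + a * c * (1 - h ^ 2) + b * (a + b + c * (1 - h ^ 2))
      + a * (2 * a + c * (1 - h ^ 2)) + c * (1 - h ^ 2) * (2 * a + b + c * (1 - h ^ 2)))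

lemma Gam_zero (ε l : Fin m → ℝ) (h0 : ℝ) (W A B : ℝ → ℝ) (k i j : Fin m) :
    Gam ε l h0 W A B 0 k i j =
      G0 ε l (cw W h0) (cw A h0) (cb1 W A B h0) (cb A B h0) (cc A B h0) k i j := by
  simp only [Gam, G0, lam_zero, eta_zero, hh_zero, rnd_zero]; ring

namespace Blk

variable {ε l : Fin m → ℝ} {h0 : ℝ} {W A B : ℝ → ℝ}

lemma HP_Gam (H : Blk ε l h0) {w' a' b1' b' c' : ℝ} (hw : HasDerivAt (cw W) w' h0)
    (ha : HasDerivAt (cw A) a' h0) (hb1 : HasDerivAt (cb1 W A B) b1' h0)
    (hb : HasDerivAt (cb A B) b' h0) (hc : HasDerivAt (cc A B) c' h0) (k i j : Fin m) :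
    HP (fun y => Gam ε l h0 W A B y k i j) 0 (fun p => DG ε l h0 (cw W h0) (cw A h0)
      (cb1 W A B h0) (cb A B h0) (cc A B h0) w' a' b1' b' c' p k i j) := by
  have F : ∀ {f : ℝ → ℝ} {f' : ℝ}, HasDerivAt f f' h0 →
      HP (fun y => f (hh ε l h0 y)) 0 (fun p => f' * l p) := fun {f f'} hf =>
    ((H.HP_hh 0).comp (F' := f') (by rw [hh_zero]; exact hf)).congr_d fun p => by rw [eta_zero]
  have E : ∀ i, HP (fun y => eta ε l h0 y i) 0 (fun p => -h0 * (co ε i * dl i p)) := fun i =>
    (H.HP_eta 0 i).congr_d fun p => by simp only [lam_zero, hh_zero, nsq_zero]; ring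
  have R1 : HP (rnd ε) 0 (fun _ => 0) := (H.HP_rnd1 0).congr_d fun p => by simp [lam_zero]
  have R2 : HP (rnd (co ε)) 0 (fun _ => 0) := (H.HP_rnd2 0).congr_d fun p => by simp [lam_zero]
  have h2 := (H.rnd2_pos 0).ne'
  have h1 := (((((((H.HP_lam_zero j).cmul (sb ε i j)).cmul (dl k i)).add
    (((H.HP_lam_zero i).cmul (sb ε i j)).cmul (dl k j))).sub
    (((H.HP_lam_zero k).cmul (sb ε i k)).cmul (dl i j))).add
    ((((F hw).cmul (ε k)).add ((F ha).cmul (co ε k))).mul
      (((E i).mul (HP.const (dl k j) 0)).add ((E j).mul (HP.const (dl k i) 0))))).add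
    ((((((F hb1).mul (R1.div R2 h2)).cmul (ε i)).add ((F hb).cmul (co ε i))).mul (E k)).cmul
      (dl i j))).add ((F hc).mul ((((E i).mul (E j)).mul (E k)).div R2 h2))
  refine h1.congr_d fun p => ?_
  simp only [DG, eta_zero, hh_zero, rnd_zero]
  ring

section sums

variable {n : ℝ} (H : Blk ε l h0) (s1 : ∑ k, ε k = 2) (s2 : ∑ k, co ε k = n)
  (w a b1 b c w' a' b1' b' c' : ℝ)
include H

lemma sum_lin (i j : Fin m) (X Y : Fin m → ℝ) (c1 c2 c3 : ℝ) (s1 : ∑ k, ε k = 2)
    (s2 : ∑ k, co ε k = n) :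
    ∑ k, (dl k i * X k + dl k j * Y k + c1 * l k ^ 2 + c2 * ε k + c3 * co ε k) =
      X i + Y j + c1 * (1 - h0 ^ 2) + c2 * 2 + c3 * n := by
  simp only [Finset.sum_add_distrib, sum_dl, ← Finset.mul_sum, H.nrm, s1, s2]

include s1 s2

lemma sumA (i j : Fin m) : ∑ k, DG ε l h0 w a b1 b c w' a' b1' b' c' k k i j =
    dl i j * (-1 + (2 * ε i + n * co ε i) / 2 - 2 * a * h0 * co ε i
      + (ε i * b1' + co ε i * b') * (1 - h0 ^ 2) - (ε i * b1 + co ε i * b) * h0 * n)
    + l i * l j * (2 * a' + c' * (1 - h0 ^ 2) - c * h0 * (n + 2)) := by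
  have h1 : ∀ k, DG ε l h0 w a b1 b c w' a' b1' b' c' k k i j =
      dl k i * (-(1 / 2) * (sb ε i j * dl j k) + (ε k * w' + co ε k * a') * l k * l j
        - (ε k * w + co ε k * a) * h0 * (co ε i * dl k j + co ε j * dl j k)
        - c * h0 * (co ε i * l j * l k))
      + dl k j * (-(1 / 2) * (sb ε i j * dl i k) + (ε k * w' + co ε k * a') * l k * l i
        - c * h0 * (co ε j * l i * l k))
      + (dl i j * (ε i * b1' + co ε i * b') + c' * (l i * l j)) * l k ^ 2
      + (dl i j * ε i / 2) * ε k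
      + (dl i j * co ε i / 2 - dl i j * (ε i * b1 + co ε i * b) * h0 - c * h0 * (l i * l j))
        * co ε k := by
    intro k
    simp only [DG, dl_self, dl_comm i k, dl_comm j k, sb]; ring
  simp only [h1]
  rw [H.sum_lin i j _ _ _ _ _ s1 s2]
  by_cases hij : i = j
  · subst hij
    simp only [dl_self, sb, co]
    rcases H.idem i with h | h
    · simp only [h]; ring
    · simp only [h, H.blk i h]; ring
  · simp only [dl_ne hij, dl_ne (Ne.symm hij), co]
    rcases H.idem i with h | h <;> rcases H.idem j with h' | h' <;>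
      simp only [h, h', H.blk i, H.blk j] <;> ring

lemma sumB (i j : Fin m) : ∑ k, DG ε l h0 w a b1 b c w' a' b1' b' c' j k k i =
    dl i j * (-(2 * ε i + n * co ε i) / 2 - h0 * co ε i * tr n h0 w a b c)
    + l i * l j * (a' + 2 * w' + n * a' + b' + c' * (1 - h0 ^ 2) - 2 * c * h0) := by
  have h1 : ∀ k, DG ε l h0 w a b1 b c w' a' b1' b' c' j k k i =
      dl k i * ((ε k * w' + co ε k * a') * l j * l k + (ε k * b1' + co ε k * b') * l j * l k
        + (1 / 2) * ((sb ε k k - sb ε k i) * dl k j)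
        - (ε k * w + co ε k * a + ε k * b1 + co ε k * b) * h0 * (co ε k * dl k j))
      + dl k j * (-(2 * c * h0 * (co ε k * l i * l k)))
      + (c' * (l j * l i) - c * h0 * (co ε i * dl i j)) * l k ^ 2
      + (-(dl i j * ε i / 2) + w' * l j * l i - w * h0 * (co ε i * dl i j)) * ε k
      + (-(dl i j * co ε i / 2) + a' * l j * l i - a * h0 * (co ε i * dl i j)) * co ε k := by
    intro k
    simp only [DG, dl_self, sb]; ring
  simp only [h1]
  rw [H.sum_lin i j _ _ _ _ _ s1 s2]
  by_cases hij : i = j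
  · subst hij
    simp only [dl_self, sb, co, tr]
    rcases H.idem i with h | h
    · simp only [h]; ring
    · simp only [h, H.blk i h]; ring
  · simp only [dl_ne hij, co]
    rcases H.idem i with h | h <;> rcases H.idem j with h' | h' <;>
      simp only [h, h', H.blk i, H.blk j] <;> ring

lemma sumT (j : Fin m) : ∑ k, G0 ε l w a b1 b c k k j = tr n h0 w a b c * l j := by
  have h1 : ∀ k, G0 ε l w a b1 b c k k j =
      dl k j * ((ε k * w + co ε k * a + ε k * b1 + co ε k * b) * l k) + dl k j * 0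
      + (c * l j) * l k ^ 2 + (w * l j) * ε k + (a * l j) * co ε k := by
    intro k
    simp only [G0, dl_self]; ring
  simp only [h1]
  rw [H.sum_lin j j _ _ _ _ _ s1 s2]
  simp only [co, tr]
  rcases H.idem j with h | h
  · simp only [h]; ring
  · simp only [h, H.blk j h]; ring

lemma sumM (i j : Fin m) : ∑ k, l k * G0 ε l w a b1 b c k i j =
    dl i j * ((ε i * b1 + co ε i * b) * (1 - h0 ^ 2)) + (2 * a + c * (1 - h0 ^ 2)) * (l i * l j) := by
  have h1 : ∀ k, l k * G0 ε l w a b1 b c k i j =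
      dl k i * ((ε k * w + co ε k * a) * l k * l j) + dl k j * ((ε k * w + co ε k * a) * l k * l i)
      + (dl i j * (ε i * b1 + co ε i * b) + c * (l i * l j)) * l k ^ 2 + 0 * ε k + 0 * co ε k := by
    intro k
    simp only [G0]; ring
  simp only [h1]
  rw [H.sum_lin i j _ _ _ _ _ s1 s2]
  simp only [co]
  rcases H.idem i with h | h <;> rcases H.idem j with h' | h' <;>
    simp only [h, h', H.blk i, H.blk j] <;> ring

lemma sumC (i j : Fin m) : ∑ k, ∑ p, G0 ε l w a b1 b c k k p * G0 ε l w a b1 b c p i j =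
    tr n h0 w a b c * (dl i j * ((ε i * b1 + co ε i * b) * (1 - h0 ^ 2)) +
      (2 * a + c * (1 - h0 ^ 2)) * (l i * l j)) := by
  rw [Finset.sum_comm]
  simp only [← Finset.sum_mul, H.sumT s1 s2, mul_assoc, ← Finset.mul_sum, H.sumM s1 s2]

lemma sumD (i j : Fin m) : ∑ k, ∑ p, G0 ε l w a b1 b c k j p * G0 ε l w a b1 b c p k i =
    dl i j * (2 * (ε i * w + co ε i * a) * (ε i * b1 + co ε i * b) * (1 - h0 ^ 2)) + l i * l j *
      (a * a + 2 * w * w + n * a * a + a * b + a * c * (1 - h0 ^ 2)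
        + b * (a + b + c * (1 - h0 ^ 2)) + a * (2 * a + c * (1 - h0 ^ 2))
        + c * (1 - h0 ^ 2) * (2 * a + b + c * (1 - h0 ^ 2))) := by
  have h1 : ∀ k, ∑ p, G0 ε l w a b1 b c k j p * G0 ε l w a b1 b c p k i =
      (ε k * w + co ε k * a) * l j * G0 ε l w a b1 b c k k i
      + (ε j * b1 + co ε j * b) * l k * G0 ε l w a b1 b c j k i
      + ((ε k * w + co ε k * a) * dl k j + c * (l j * l k)) *
        (dl k i * ((ε k * b1 + co ε k * b) * (1 - h0 ^ 2)) +
          (2 * a + c * (1 - h0 ^ 2)) * (l k * l i)) := by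
    intro k
    have h2 : ∀ p, G0 ε l w a b1 b c k j p * G0 ε l w a b1 b c p k i =
        dl k p * ((ε k * w + co ε k * a) * l j * G0 ε l w a b1 b c p k i)
        + dl j p * ((ε j * b1 + co ε j * b) * l k * G0 ε l w a b1 b c p k i)
        + ((ε k * w + co ε k * a) * dl k j + c * (l j * l k)) *
          (l p * G0 ε l w a b1 b c p k i) := by
      intro p
      rw [show G0 ε l w a b1 b c k j p = (ε k * w + co ε k * a) * (l j * dl k p + l p * dl k j)
        + dl j p * ((ε j * b1 + co ε j * b) * l k) + c * (l j * l p * l k) from rfl]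
      ring
    simp only [h2, Finset.sum_add_distrib, sum_dl', ← Finset.mul_sum, H.sumM s1 s2]
  have h3 : ∀ k, ∑ p, G0 ε l w a b1 b c k j p * G0 ε l w a b1 b c p k i =
      dl k i * ((ε k * w + co ε k * a) * l j * ((ε k * w + co ε k * a + ε k * b1 + co ε k * b) * l k)
        + (ε j * b1 + co ε j * b) * l k * ((ε k * b1 + co ε k * b) * l j)
        + ((ε k * w + co ε k * a) * dl k j + c * (l j * l k)) *
          ((ε k * b1 + co ε k * b) * (1 - h0 ^ 2)))
      + dl k j * ((ε j * b1 + co ε j * b) * l k * ((ε j * w + co ε j * a) * l i)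
        + (ε k * w + co ε k * a) * ((2 * a + c * (1 - h0 ^ 2)) * (l k * l i)))
      + (a * l j * c * l i + (ε j * b1 + co ε j * b) * ((ε j * w + co ε j * a) * dl j i
        + c * (l i * l j)) + c * l j * ((2 * a + c * (1 - h0 ^ 2)) * l i)) * l k ^ 2
      + (w * w * l j * l i) * ε k + (a * a * l j * l i) * co ε k := by
    intro k
    rw [h1]
    simp only [G0, dl_self, dl_comm j k, co]
    rcases H.idem k with h | h
    · simp only [h]; ring
    · simp only [h, H.blk k h]; ring
  simp only [h3]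
  rw [H.sum_lin i j _ _ _ _ _ s1 s2]
  by_cases hij : i = j
  · subst hij
    simp only [dl_self, co]
    rcases H.idem i with h | h
    · simp only [h]; ring
    · simp only [h, H.blk i h]; ring
  · simp only [dl_ne hij, dl_ne (Ne.symm hij), co]
    rcases H.idem i with h | h <;> rcases H.idem j with h' | h' <;>
      simp only [h, h', H.blk i, H.blk j] <;> ring

/-- The Ricci tensor of `Gm` at the centre. -/
theorem ricci_Gm (P : Prof W A B) {w' a' b1' b' c' : ℝ} (hw : HasDerivAt (cw W) w' h0)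
    (ha : HasDerivAt (cw A) a' h0) (hb1 : HasDerivAt (cb1 W A B) b1' h0)
    (hb : HasDerivAt (cb A B) b' h0) (hc : HasDerivAt (cc A B) c' h0) (i j : Fin m) :
    ricci (Gm ε l h0 W A B) 0 i j =
      dl i j * (ε i * r1 n h0 (cw W h0) (cw A h0) (cb1 W A B h0) (cb A B h0) (cc A B h0) b1'
        + co ε i * r2 n h0 (cw W h0) (cw A h0) (cb A B h0) (cc A B h0) b')
      + r3 n h0 (cw W h0) (cw A h0) (cb A B h0) (cc A B h0) w' a' b' * (l i * l j) := by
  unfold ricci
  simp only [H.christoffel_Gm P, Gam_zero]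
  rw [(HP.sum Finset.univ fun k _ => H.HP_Gam hw ha hb1 hb hc k k i).2 j]
  simp only [(H.HP_Gam hw ha hb1 hb hc _ _ _).2]
  rw [H.sumA s1 s2, H.sumB s1 s2, H.sumC s1 s2, H.sumD s1 s2]
  simp only [r1, r2, r3, co]
  rcases H.idem i with h | h <;> simp only [h] <;> ring

end sums

end Blk

end Crest.Agent.N207.S.Geo

end
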