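import Crest.Agent.N207.S.G1c
/-!
Row 207 / S0320 geometry, G1d: scalar curvature of `Gm` at the centre, `|Rm|²` at a pole, and the
algebraic identification of `r1, r2, r3` with `ra, rb, rc`.
-/

set_option autoImplicit false
open scoped ContDiff Topology
open Set Filter Crest.GeometryTopology.CoordMetric Crest.GeometryTopology.ChartCurvature
  Crest.GeometryTopology.MetricFamily

noncomputable section

namespace Crest.Agent.N207.S.Geo

variable {m : ℕ}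

lemma rm_lower (G : MetricField m) (y : EuclideanSpace ℝ (Fin m)) (D : Fin m → ℝ)
    (hD : ∀ i, 0 < D i) (hG : ∀ a b, G y a b = dl a b * D a)
    (hi : ∀ a b, (G y)⁻¹ a b = dl a b * (D a)⁻¹) (l k i j : Fin m) :
    (D l)⁻¹ * (D k)⁻¹ * (D i)⁻¹ * (D j)⁻¹ * (D l * riemann G y l k i j) ^ 2 ≤ rmNormSq G y := by
  have h0 : ∀ l k i j, riemannLower G y l k i j = D l * riemann G y l k i j := by
    intro l k i j
    simp only [riemannLower, hG, mul_assoc, sum_dl']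
  have h1 : ∀ l k i j : Fin m, (∑ a, ∑ b, ∑ c, ∑ d,
      (G y)⁻¹ l a * (G y)⁻¹ k b * (G y)⁻¹ i c * (G y)⁻¹ j d *
        riemannLower G y l k i j * riemannLower G y a b c d) =
      (D l)⁻¹ * (D k)⁻¹ * (D i)⁻¹ * (D j)⁻¹ * (D l * riemann G y l k i j) ^ 2 := by
    intro l k i j
    have h2 : ∀ a b c d : Fin m, (G y)⁻¹ l a * (G y)⁻¹ k b * (G y)⁻¹ i c * (G y)⁻¹ j d *
        riemannLower G y l k i j * riemannLower G y a b c d =
        dl l a * (dl k b * (dl i c * (dl j d * ((D l)⁻¹ * (D k)⁻¹ * (D i)⁻¹ * (D j)⁻¹ *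
          riemannLower G y l k i j * riemannLower G y a b c d)))) := by
      intro a b c d; simp only [hi]; ring
    simp only [h2, ← Finset.mul_sum, sum_dl']
    rw [h0]; ring
  unfold rmNormSq
  simp only [h1]
  have hp : ∀ l k i j : Fin m,
      0 ≤ (D l)⁻¹ * (D k)⁻¹ * (D i)⁻¹ * (D j)⁻¹ * (D l * riemann G y l k i j) ^ 2 := by
    intro l k i j
    have := hD l; have := hD k; have := hD i; have := hD j
    positivity
  refine le_trans ?_ (Finset.single_le_sum (fun l _ => Finset.sum_nonneg fun k _ =>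
    Finset.sum_nonneg fun i _ => Finset.sum_nonneg fun j _ => hp l k i j) (Finset.mem_univ l))
  refine le_trans ?_ (Finset.single_le_sum (fun k _ =>
    Finset.sum_nonneg fun i _ => Finset.sum_nonneg fun j _ => hp l k i j) (Finset.mem_univ k))
  refine le_trans ?_ (Finset.single_le_sum (fun i _ =>
    Finset.sum_nonneg fun j _ => hp l k i j) (Finset.mem_univ i))
  exact Finset.single_le_sum (fun j _ => hp l k i j) (Finset.mem_univ j)

namespace Blk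

variable {ε l : Fin m → ℝ} {h0 : ℝ} {W A B : ℝ → ℝ}

lemma Gm_zero (H : Blk ε l h0) (W A B : ℝ → ℝ) (i j : Fin m) :
    Gm ε l h0 W A B 0 i j = dl i j * (ε i * W h0 + co ε i * A h0) + B h0 * (l i * l j) := by
  rw [H.Gm_apply]; simp only [Dg, hh_zero, rnd_zero, eta_zero, mul_one]

lemma Gm_inv_zero (H : Blk ε l h0) (P : Prof W A B) (i j : Fin m) :
    (Gm ε l h0 W A B 0)⁻¹ i j = dl i j * (ε i * W h0 + co ε i * A h0)⁻¹ -
      B h0 / (A h0 * SS A B h0) * (l i * l j) := by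
  rw [Matrix.inv_eq_right_inv (H.Gm_mul_Ginv P 0)]
  simp only [Ginv, Matrix.of_apply, Dg, hh_zero, rnd_zero, eta_zero, mul_one, one_pow]

lemma scalar_Gm (H : Blk ε l h0) {n : ℝ} (s1 : ∑ k, ε k = 2) (s2 : ∑ k, co ε k = n)
    (P : Prof W A B) {R1 R2 R3 : ℝ} (hR : ∀ i j, ricci (Gm ε l h0 W A B) 0 i j =
      dl i j * (ε i * R1 + co ε i * R2) + R3 * (l i * l j)) :
    scalarCurv (Gm ε l h0 W A B) 0 = 2 * (R1 / W h0) + (n - 1) * (R2 / A h0) +
      (R2 + R3 * (1 - h0 ^ 2)) / SS A B h0 := by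
  have hW := (P.pW _ H.h0_mem).ne'
  have hA := (P.pA _ H.h0_mem).ne'
  have hS := (P.pS _ H.h0_mem).ne'
  set κ := B h0 / (A h0 * SS A B h0) with hκ
  have h1 : ∀ i j, (Gm ε l h0 W A B 0)⁻¹ i j * ricci (Gm ε l h0 W A B) 0 i j =
      dl i j * ((ε i * W h0 + co ε i * A h0)⁻¹ * (dl i j * (ε i * R1 + co ε i * R2) +
        R3 * (l i * l j)) - κ * (l i * l j) * (ε i * R1 + co ε i * R2))
      - κ * R3 * l i ^ 2 * l j ^ 2 := by
    intro i j; rw [H.Gm_inv_zero P, hR, ← hκ]; ring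
  have h2 : ∀ i, ∑ j, (Gm ε l h0 W A B 0)⁻¹ i j * ricci (Gm ε l h0 W A B) 0 i j =
      (R3 / A h0 - κ * R2 - κ * R3 * (1 - h0 ^ 2)) * l i ^ 2 + (R1 / W h0) * ε i
        + (R2 / A h0) * co ε i := by
    intro i
    simp only [h1, Finset.sum_sub_distrib, sum_dl', ← Finset.mul_sum, H.nrm, dl_self, co]
    rcases H.idem i with h | h
    · simp only [h]; ring
    · simp only [h, H.blk i h]; ring
  unfold scalarCurv
  simp only [h2, Finset.sum_add_distrib, ← Finset.mul_sum, H.nrm, s1, s2]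
  rw [hκ]
  have hS' : SS A B h0 = A h0 + B h0 * (1 - h0 ^ 2) := rfl
  rw [hS'] at hS ⊢
  field_simp
  ring

/-- At a pole, `|Rm|² ≥ 1/W²`. -/
lemma rm_pole (H : Blk ε l h0) (hp : h0 ^ 2 = 1) (P : Prof W A B) {w' a' b1' b' c' : ℝ}
    (hw : HasDerivAt (cw W) w' h0) (ha : HasDerivAt (cw A) a' h0)
    (hb1 : HasDerivAt (cb1 W A B) b1' h0) (hb : HasDerivAt (cb A B) b' h0)
    (hc : HasDerivAt (cc A B) c' h0) {i j : Fin m} (hij : i ≠ j) (hi : ε i = 1) (hj : ε j = 1) :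
    (W h0)⁻¹ ^ 2 ≤ rmNormSq (Gm ε l h0 W A B) 0 := by
  have hl : ∀ k, l k = 0 := by
    intro k
    have h1 : ∑ i, l i ^ 2 = 0 := by rw [H.nrm, hp]; ring
    have := (Finset.sum_eq_zero_iff_of_nonneg fun i _ => sq_nonneg (l i)).1 h1 k (Finset.mem_univ k)
    exact pow_eq_zero_iff (two_ne_zero) |>.1 this
  have hW := P.pW _ H.h0_mem
  have hA := P.pA _ H.h0_mem
  have h1 := rm_lower (Gm ε l h0 W A B) 0 (fun k => ε k * W h0 + co ε k * A h0)
    (fun k => by rcases H.idem k with h | h <;> simp [co, h, hW, hA])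
    (fun a b => by rw [H.Gm_zero]; simp [hl]) (fun a b => by rw [H.Gm_inv_zero P]; simp [hl])
    i j i j
  have h2 : riemann (Gm ε l h0 W A B) 0 i j i j = 1 := by
    unfold riemann
    simp only [H.christoffel_Gm P, Gam_zero, (H.HP_Gam hw ha hb1 hb hc _ _ _).2]
    simp only [DG, G0, hl, dl_self, dl_ne hij, dl_ne hij.symm, sb, co, hi, hj]
    simp
    ring
  rw [h2] at h1
  simp only [co, hi, hj] at h1
  refine le_trans (le_of_eq ?_) h1
  field_simp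
  ring

end Blk

lemma alg1 (q : ℕ) (h W W1 W2 A A1 B B1 S : ℝ) (hW : W ≠ 0) (hA : A ≠ 0) (hS : S ≠ 0)
    (hL : 1 - h ^ 2 ≠ 0) (hB : S = A + B * (1 - h ^ 2)) :
    ra q W W1 W2 (A * (1 - h ^ 2)) (A1 * (1 - h ^ 2) - 2 * h * A) ((1 - h ^ 2) / S)
      ((-(2 * h) * S - (1 - h ^ 2) * (A1 + B1 * (1 - h ^ 2) - 2 * h * B)) / S ^ 2) * W =
    r1 (q + 1) h (W1 / (2 * W)) (A1 / (2 * A)) (-W1 / (2 * S)) (-(A1 + 2 * B * h) / (2 * S))
      ((B1 / 2 - A1 * B / A) / S)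
      (-(W2 * S - W1 * (A1 + B1 * (1 - h ^ 2) - 2 * h * B)) / (2 * S ^ 2)) := by
  have hB' : B = (S - A) / (1 - h ^ 2) := by field_simp; linarith
  subst hB'
  simp only [ra, kS, kT, kX, r1, tr]
  field_simp
  ring

lemma alg2 (q : ℕ) (h W W1 A A1 A2 B B1 S : ℝ) (hW : W ≠ 0) (hA : A ≠ 0) (hS : S ≠ 0)
    (hL : 1 - h ^ 2 ≠ 0) (hB : S = A + B * (1 - h ^ 2)) :
    rb q W W1 (A * (1 - h ^ 2)) (A1 * (1 - h ^ 2) - 2 * h * A)
      (A2 * (1 - h ^ 2) - 4 * h * A1 - 2 * A) ((1 - h ^ 2) / S)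
      ((-(2 * h) * S - (1 - h ^ 2) * (A1 + B1 * (1 - h ^ 2) - 2 * h * B)) / S ^ 2) * A =
    r2 (q + 1) h (W1 / (2 * W)) (A1 / (2 * A)) (-(A1 + 2 * B * h) / (2 * S))
      ((B1 / 2 - A1 * B / A) / S)
      (-((A2 + 2 * B1 * h + 2 * B) * S - (A1 + 2 * B * h) * (A1 + B1 * (1 - h ^ 2) - 2 * h * B))
        / (2 * S ^ 2)) := by
  have hB' : B = (S - A) / (1 - h ^ 2) := by field_simp; linarith
  subst hB'
  simp only [rb, kS, kT, kX, r2, tr]
  field_simp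
  ring

lemma alg3 (q : ℕ) (h W W1 W2 A A1 A2 B B1 S : ℝ) (hW : W ≠ 0) (hA : A ≠ 0) (hS : S ≠ 0)
    (hL : 1 - h ^ 2 ≠ 0) (hB : S = A + B * (1 - h ^ 2)) :
    rc q W W1 W2 (A * (1 - h ^ 2)) (A1 * (1 - h ^ 2) - 2 * h * A)
      (A2 * (1 - h ^ 2) - 4 * h * A1 - 2 * A) ((1 - h ^ 2) / S)
      ((-(2 * h) * S - (1 - h ^ 2) * (A1 + B1 * (1 - h ^ 2) - 2 * h * B)) / S ^ 2) * S =
    r2 (q + 1) h (W1 / (2 * W)) (A1 / (2 * A)) (-(A1 + 2 * B * h) / (2 * S))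
      ((B1 / 2 - A1 * B / A) / S)
      (-((A2 + 2 * B1 * h + 2 * B) * S - (A1 + 2 * B * h) * (A1 + B1 * (1 - h ^ 2) - 2 * h * B))
        / (2 * S ^ 2)) +
    r3 (q + 1) h (W1 / (2 * W)) (A1 / (2 * A)) (-(A1 + 2 * B * h) / (2 * S))
      ((B1 / 2 - A1 * B / A) / S) ((W2 * W - W1 ^ 2) / (2 * W ^ 2)) ((A2 * A - A1 ^ 2) / (2 * A ^ 2))
      (-((A2 + 2 * B1 * h + 2 * B) * S - (A1 + 2 * B * h) * (A1 + B1 * (1 - h ^ 2) - 2 * h * B))
        / (2 * S ^ 2)) * (1 - h ^ 2) := by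
  have hB' : B = (S - A) / (1 - h ^ 2) := by field_simp; linarith
  subst hB'
  simp only [rc, kS, r2, r3, tr]
  field_simp
  ring

end Crest.Agent.N207.S.Geo

end
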