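import Crest.Agent.N207.S.G1d
/-!
Row 207 / S0320 geometry, G1e: `RedFlow → ChartFlow`.
-/

set_option autoImplicit false
open scoped ContDiff Topology
open Set Filter Crest.GeometryTopology.CoordMetric Crest.GeometryTopology.ChartCurvature
  Crest.GeometryTopology.MetricFamily

noncomputable section

namespace Crest.Agent.N207.S.Geo

/-- Smooth near every point of `[-1,1]`. -/
def Sm (f : ℝ → ℝ) : Prop := ∀ h ∈ Icc (-1 : ℝ) 1, ContDiffAt ℝ ∞ f h

lemma Sm.deriv {f : ℝ → ℝ} (hf : Sm f) : Sm (deriv f) := fun h hh =>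
  ((hf h hh).fderiv_right (m := ∞) (le_of_eq rfl)).clm_apply contDiffAt_const

lemma Sm.diff {f : ℝ → ℝ} (hf : Sm f) {h : ℝ} (hh : h ∈ Icc (-1 : ℝ) 1) : DifferentiableAt ℝ f h :=
  (hf h hh).differentiableAt (by simp)

lemma Sm.cont {f : ℝ → ℝ} (hf : Sm f) : ContinuousOn f (Icc (-1 : ℝ) 1) := fun h hh =>
  (hf h hh).continuousAt.continuousWithinAt

/-- Smooth positive profile. -/
structure SProf (W A B : ℝ → ℝ) : Prop where
  sW : Sm W
  sA : Sm A
  sB : Sm B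
  pW : ∀ h ∈ Icc (-1 : ℝ) 1, 0 < W h
  pA : ∀ h ∈ Icc (-1 : ℝ) 1, 0 < A h
  pS : ∀ h ∈ Icc (-1 : ℝ) 1, 0 < SS A B h

/-- `r1` of a profile. -/
def R1 (q : ℕ) (W A B : ℝ → ℝ) (h : ℝ) : ℝ :=
  r1 (q + 1) h (cw W h) (cw A h) (cb1 W A B h) (cb A B h) (cc A B h) (deriv (cb1 W A B) h)
/-- `r2` of a profile. -/
def R2 (q : ℕ) (W A B : ℝ → ℝ) (h : ℝ) : ℝ :=
  r2 (q + 1) h (cw W h) (cw A h) (cb A B h) (cc A B h) (deriv (cb A B) h)
/-- `r3` of a profile. -/
def R3 (q : ℕ) (W A B : ℝ → ℝ) (h : ℝ) : ℝ :=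
  r3 (q + 1) h (cw W h) (cw A h) (cb A B h) (cc A B h) (deriv (cw W) h) (deriv (cw A) h)
    (deriv (cb A B) h)

namespace SProf

variable {W A B : ℝ → ℝ}

lemma prof (P : SProf W A B) : Prof W A B :=
  ⟨fun _ hh => P.sW.diff hh, fun _ hh => P.sA.diff hh, fun _ hh => P.sB.diff hh, P.pW, P.pA, P.pS⟩

lemma sS (P : SProf W A B) : Sm (SS A B) := fun h hh =>
  (P.sA h hh).add ((P.sB h hh).mul (by fun_prop))

lemma scwW (P : SProf W A B) : Sm (cw W) := fun h hh =>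
  (P.sW.deriv h hh).div (contDiffAt_const.mul (P.sW h hh)) (by have := P.pW h hh; positivity)

lemma scwA (P : SProf W A B) : Sm (cw A) := fun h hh =>
  (P.sA.deriv h hh).div (contDiffAt_const.mul (P.sA h hh)) (by have := P.pA h hh; positivity)

lemma scb1 (P : SProf W A B) : Sm (cb1 W A B) := fun h hh =>
  (P.sW.deriv h hh).neg.div (contDiffAt_const.mul (P.sS h hh)) (by have := P.pS h hh; positivity)

lemma scb (P : SProf W A B) : Sm (cb A B) := fun h hh =>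
  ((P.sA.deriv h hh).add ((contDiffAt_const.mul (P.sB h hh)).mul contDiffAt_id)).neg.div
    (contDiffAt_const.mul (P.sS h hh)) (by have := P.pS h hh; positivity)

lemma scc (P : SProf W A B) : Sm (cc A B) := fun h hh =>
  (((P.sB.deriv h hh).div_const 2).sub (((P.sA.deriv h hh).mul (P.sB h hh)).div (P.sA h hh)
    (P.pA h hh).ne')).div (P.sS h hh) (P.pS h hh).ne'

lemma cR1 (P : SProf W A B) (q : ℕ) : ContinuousOn (R1 q W A B) (Icc (-1 : ℝ) 1) := by
  have h1 := P.scwW.cont; have h2 := P.scwA.cont; have h3 := P.scb1.cont; have h4 := P.scb.cont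
  have h5 := P.scc.cont; have h6 := P.scb1.deriv.cont
  unfold R1 r1 tr
  fun_prop

lemma cR2 (P : SProf W A B) (q : ℕ) : ContinuousOn (R2 q W A B) (Icc (-1 : ℝ) 1) := by
  have h1 := P.scwW.cont; have h2 := P.scwA.cont; have h4 := P.scb.cont
  have h5 := P.scc.cont; have h6 := P.scb.deriv.cont
  unfold R2 r2 tr
  fun_prop

lemma cR3 (P : SProf W A B) (q : ℕ) : ContinuousOn (R3 q W A B) (Icc (-1 : ℝ) 1) := by
  have h1 := P.scwW.cont; have h2 := P.scwA.cont; have h4 := P.scb.cont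
  have h5 := P.scc.cont; have h6 := P.scb.deriv.cont; have h7 := P.scwW.deriv.cont
  have h8 := P.scwA.deriv.cont
  unfold R3 r3 tr
  fun_prop

lemma interior (P : SProf W A B) (q : ℕ) {h : ℝ} (hh : h ∈ Ioo (-1 : ℝ) 1) :
    fa q W (fun x => A x * (1 - x ^ 2)) (fun x => (1 - x ^ 2) / SS A B x) h * W h = R1 q W A B h ∧
    fb q W (fun x => A x * (1 - x ^ 2)) (fun x => (1 - x ^ 2) / SS A B x) h * A h = R2 q W A B h ∧
    fc q W (fun x => A x * (1 - x ^ 2)) (fun x => (1 - x ^ 2) / SS A B x) h * SS A B h =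
      R2 q W A B h + R3 q W A B h * (1 - h ^ 2) := by
  have hc : h ∈ Icc (-1 : ℝ) 1 := Ioo_subset_Icc_self hh
  have hW := (P.pW h hc).ne'
  have hA := (P.pA h hc).ne'
  have hS := (P.pS h hc).ne'
  have hL : 1 - h ^ 2 ≠ 0 := by nlinarith [hh.1, hh.2]
  have dW := (P.sW.diff hc).hasDerivAt
  have dW2 := (P.sW.deriv.diff hc).hasDerivAt
  have dA := (P.sA.diff hc).hasDerivAt
  have dA2 := (P.sA.deriv.diff hc).hasDerivAt
  have dB := (P.sB.diff hc).hasDerivAt
  have dL : ∀ x : ℝ, HasDerivAt (fun x : ℝ => 1 - x ^ 2) (-(2 * x)) x := fun x => by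
    simpa using (hasDerivAt_pow 2 x).const_sub 1
  have dS : HasDerivAt (SS A B) (deriv A h + deriv B h * (1 - h ^ 2) - 2 * h * B h) h :=
    (dA.add (dB.mul (dL h))).congr_deriv (by ring)
  have dP : ∀ x ∈ Icc (-1 : ℝ) 1, deriv (fun x => A x * (1 - x ^ 2)) x =
      deriv A x * (1 - x ^ 2) - 2 * x * A x := fun x hx =>
    (((P.sA.diff hx).hasDerivAt.mul (dL x)).congr_deriv (by ring)).deriv
  have dP2 : deriv (deriv (fun x => A x * (1 - x ^ 2))) h =
      deriv (deriv A) h * (1 - h ^ 2) - 4 * h * deriv A h - 2 * A h := by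
    have e : deriv (fun x => A x * (1 - x ^ 2)) =ᶠ[𝓝 h]
        fun x => deriv A x * (1 - x ^ 2) - 2 * x * A x := by
      filter_upwards [Icc_mem_nhds hh.1 hh.2] with x hx using dP x hx
    rw [e.deriv_eq]
    exact (((dA2.mul (dL h)).sub (((hasDerivAt_id' h).const_mul 2).mul dA)).congr_deriv
      (by ring)).deriv
  have dZ : deriv (fun x => (1 - x ^ 2) / SS A B x) h = (-(2 * h) * SS A B h - (1 - h ^ 2) *
      (deriv A h + deriv B h * (1 - h ^ 2) - 2 * h * B h)) / SS A B h ^ 2 :=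
    ((dL h).div dS hS).deriv
  have d1 : deriv (cw W) h = (deriv (deriv W) h * W h - deriv W h ^ 2) / (2 * W h ^ 2) :=
    ((dW2.div (dW.const_mul 2) (mul_ne_zero two_ne_zero hW)).congr_deriv
      (by field_simp)).deriv
  have d2 : deriv (cw A) h = (deriv (deriv A) h * A h - deriv A h ^ 2) / (2 * A h ^ 2) :=
    ((dA2.div (dA.const_mul 2) (mul_ne_zero two_ne_zero hA)).congr_deriv
      (by field_simp)).deriv
  have d3 : deriv (cb1 W A B) h = -(deriv (deriv W) h * SS A B h - deriv W h *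
      (deriv A h + deriv B h * (1 - h ^ 2) - 2 * h * B h)) / (2 * SS A B h ^ 2) :=
    ((dW2.neg.div (dS.const_mul 2) (mul_ne_zero two_ne_zero hS)).congr_deriv
      (by simp only [Pi.neg_apply]; field_simp; ring)).deriv
  have d4 : deriv (cb A B) h = -((deriv (deriv A) h + 2 * deriv B h * h + 2 * B h) * SS A B h -
      (deriv A h + 2 * B h * h) * (deriv A h + deriv B h * (1 - h ^ 2) - 2 * h * B h)) /
        (2 * SS A B h ^ 2) :=
    (((dA2.add ((dB.const_mul 2).mul (hasDerivAt_id' h))).neg.div (dS.const_mul 2)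
      (mul_ne_zero two_ne_zero hS)).congr_deriv
      (by simp only [Pi.neg_apply, Pi.add_apply, Pi.mul_apply]; field_simp; ring)).deriv
  simp only [fa, fb, fc, R1, R2, R3, dP h hc, dP2, dZ, d1, d2, d3, d4]
  exact ⟨alg1 q h _ _ _ _ _ _ _ _ hW hA hS hL rfl, alg2 q h _ _ _ _ _ _ _ _ hW hA hS hL rfl,
    alg3 q h _ _ _ _ _ _ _ _ _ hW hA hS hL rfl⟩

end SProf

lemma SmH.sm {a T : ℝ} {F : ℝ → ℝ → ℝ} (hF : SmH a T F) {t : ℝ} (ht : t ∈ Ioo a T) : Sm (F t) :=
  fun h hh => (hF t ht h hh).comp h (contDiffAt_const.prodMk contDiffAt_id)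

lemma SmH.hasDerivAt_t {a T : ℝ} {F : ℝ → ℝ → ℝ} (hF : SmH a T F) {t : ℝ} (ht : t ∈ Ioo a T)
    {h : ℝ} (hh : h ∈ Icc (-1 : ℝ) 1) : HasDerivAt (fun s => F s h)
      (fderiv ℝ (fun p : ℝ × ℝ => F p.1 p.2) (t, h) (1, 0)) t := by
  have h1 := ((hF t ht h hh).differentiableAt (by simp)).hasFDerivAt
  have h2 : HasDerivAt (fun s : ℝ => (s, h)) ((1 : ℝ), (0 : ℝ)) t :=
    (hasDerivAt_id' t).prodMk (hasDerivAt_const t h)
  exact HasFDerivAt.comp_hasDerivAt (f := fun s : ℝ => (s, h)) t h1 h2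

lemma SmH.cont_t {a T : ℝ} {F : ℝ → ℝ → ℝ} (hF : SmH a T F) {t : ℝ} (ht : t ∈ Ioo a T) :
    ContinuousOn (fun h => deriv (fun s => F s h) t) (Icc (-1 : ℝ) 1) := by
  refine ContinuousOn.congr (f := fun h => fderiv ℝ (fun p : ℝ × ℝ => F p.1 p.2) (t, h) (1, 0))
    (fun h hh => ?_) fun h hh => (hF.hasDerivAt_t ht hh).deriv
  have h1 : ContinuousAt (fderiv ℝ (fun p : ℝ × ℝ => F p.1 p.2)) (t, h) :=
    ((hF t ht h hh).fderiv_right (m := ∞) (le_of_eq rfl)).continuousAt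
  have h2 : ContinuousAt (fun h : ℝ => fderiv ℝ (fun p : ℝ × ℝ => F p.1 p.2) (t, h)) h :=
    ContinuousAt.comp (f := fun h : ℝ => (t, h)) h1 (by fun_prop)
  exact (h2.clm_apply continuousAt_const).continuousWithinAt

lemma eq_Icc {f g : ℝ → ℝ} (hf : ContinuousOn f (Icc (-1 : ℝ) 1))
    (hg : ContinuousOn g (Icc (-1 : ℝ) 1)) (h : ∀ x ∈ Ioo (-1 : ℝ) 1, f x = g x) :
    ∀ x ∈ Icc (-1 : ℝ) 1, f x = g x :=
  Set.EqOn.of_subset_closure (s := Ioo (-1 : ℝ) 1) h hf hg Ioo_subset_Icc_self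
    (by rw [closure_Ioo (by norm_num)])

lemma sum_e1 (n : ℕ) : ∑ k, e1 n k = 2 := by
  rw [Fin.sum_univ_add]
  have h1 : ∀ i : Fin 2, e1 n (Fin.castAdd n i) = 1 := fun i => if_pos i.2
  have h2 : ∀ i : Fin n, e1 n (Fin.natAdd 2 i) = 0 := fun i => if_neg (by simp; omega)
  simp [h1, h2]

lemma sum_co_e1 (n : ℕ) : ∑ k, co (e1 n) k = n := by
  simp only [co, Finset.sum_sub_distrib, sum_e1]; simp

namespace RedFlow

variable {q : ℕ} {a T : ℝ} {W A B : ℝ → ℝ → ℝ}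

lemma sprof (F : RedFlow q a T W A B) {t : ℝ} (ht : t ∈ Ioo a T) : SProf (W t) (A t) (B t) :=
  ⟨F.smW.sm ht, F.smA.sm ht, F.smB.sm ht, F.posW t ht, F.posA t ht, F.posS t ht⟩

lemma dt_interior (F : RedFlow q a T W A B) {t : ℝ} (ht : t ∈ Ioo a T) {h : ℝ}
    (hh : h ∈ Ioo (-1 : ℝ) 1) :
    deriv (fun s => W s h) t = -2 * R1 q (W t) (A t) (B t) h ∧
    deriv (fun s => A s h) t = -2 * R2 q (W t) (A t) (B t) h ∧
    deriv (fun s => B s h) t = -2 * R3 q (W t) (A t) (B t) h := by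
  have hc : h ∈ Icc (-1 : ℝ) 1 := Ioo_subset_Icc_self hh
  have hL : 1 - h ^ 2 ≠ 0 := by nlinarith [hh.1, hh.2]
  obtain ⟨i1, i2, i3⟩ := (F.sprof ht).interior q hh
  obtain ⟨e1, e2, e3⟩ := F.eqs t ht h hh
  have hS : A t h + B t h * (1 - h ^ 2) ≠ 0 := (F.posS t ht h hc).ne'
  have dA := (F.smA.hasDerivAt_t ht hc).differentiableAt.hasDerivAt
  have dB := (F.smB.hasDerivAt_t ht hc).differentiableAt.hasDerivAt
  have p1 : deriv (fun s => redP A s h) t = deriv (fun s => A s h) t * (1 - h ^ 2) :=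
    (dA.mul_const _).deriv
  have p2 : deriv (fun s => redZ A B s h) t = -((1 - h ^ 2) * (deriv (fun s => A s h) t +
      deriv (fun s => B s h) t * (1 - h ^ 2))) / (A t h + B t h * (1 - h ^ 2)) ^ 2 :=
    (((hasDerivAt_const t (1 - h ^ 2)).div (dA.add (dB.mul_const (1 - h ^ 2))) hS).congr_deriv
      (by simp)).deriv
  rw [p1] at e2
  rw [p2] at e3
  simp only [zero_mul, add_zero, deriv_const', mul_zero, sub_zero] at e1 e2 e3
  change fa q (W t) (redP A t) (redZ A B t) h * _ = _ at i1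
  change fb q (W t) (redP A t) (redZ A B t) h * _ = _ at i2
  change fc q (W t) (redP A t) (redZ A B t) h * (A t h + B t h * (1 - h ^ 2)) = _ at i3
  have a2 : deriv (fun s => A s h) t = -2 * R2 q (W t) (A t) (B t) h := by
    refine mul_right_cancel₀ hL ?_
    rw [e2, ← i2]; simp only [redP]; ring
  refine ⟨by rw [e1, ← i1]; ring, a2, ?_⟩
  have e4 : redZ A B t h = (1 - h ^ 2) / (A t h + B t h * (1 - h ^ 2)) := rfl
  rw [e4] at e3
  generalize A t h + B t h * (1 - h ^ 2) = S at e3 i3 hS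
  generalize fc q (W t) (redP A t) (redZ A B t) h = c at e3 i3
  generalize 1 - h ^ 2 = L at e3 i3 hL
  field_simp at e3
  refine mul_right_cancel₀ hL ?_
  linear_combination (-1) * e3 - 2 * i3 - a2

lemma dt_all (F : RedFlow q a T W A B) {t : ℝ} (ht : t ∈ Ioo a T) {h : ℝ}
    (hh : h ∈ Icc (-1 : ℝ) 1) :
    deriv (fun s => W s h) t = -2 * R1 q (W t) (A t) (B t) h ∧
    deriv (fun s => A s h) t = -2 * R2 q (W t) (A t) (B t) h ∧
    deriv (fun s => B s h) t = -2 * R3 q (W t) (A t) (B t) h :=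
  ⟨eq_Icc (F.smW.cont_t ht) (continuousOn_const.mul ((F.sprof ht).cR1 q))
      (fun _ hx => (F.dt_interior ht hx).1) h hh,
    eq_Icc (F.smA.cont_t ht) (continuousOn_const.mul ((F.sprof ht).cR2 q))
      (fun _ hx => (F.dt_interior ht hx).2.1) h hh,
    eq_Icc (F.smB.cont_t ht) (continuousOn_const.mul ((F.sprof ht).cR3 q))
      (fun _ hx => (F.dt_interior ht hx).2.2) h hh⟩

lemma ricci_eq (F : RedFlow q a T W A B) {t : ℝ} (ht : t ∈ Ioo a T) {l : Fin (2 + (q + 1)) → ℝ}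
    {h0 : ℝ} (H : Blk (e1 (q + 1)) l h0) (i j : Fin (2 + (q + 1))) :
    ricci (Gm (e1 (q + 1)) l h0 (W t) (A t) (B t)) 0 i j =
      dl i j * (e1 (q + 1) i * R1 q (W t) (A t) (B t) h0 +
        co (e1 (q + 1)) i * R2 q (W t) (A t) (B t) h0) + R3 q (W t) (A t) (B t) h0 * (l i * l j) := by
  have P := F.sprof ht
  have hm := H.h0_mem
  exact H.ricci_Gm (n := (q : ℝ) + 1) (sum_e1 _) (by rw [sum_co_e1]; push_cast; ring) P.prof
    (P.scwW.diff hm).hasDerivAt (P.scwA.diff hm).hasDerivAt (P.scb1.diff hm).hasDerivAt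
    (P.scb.diff hm).hasDerivAt (P.scc.diff hm).hasDerivAt i j

theorem chartFlow (F : RedFlow q a T W A B) : ChartFlow q a T W A B := by
  refine ⟨fun l h0 hA t ht i j => ?_, ?_, fun K => ?_⟩
  · have H := hA.toBlk
    have hm := H.h0_mem
    obtain ⟨e1, e2, e3⟩ := F.dt_all ht hm
    have dW := (F.smW.hasDerivAt_t ht hm).differentiableAt.hasDerivAt
    have dA := (F.smA.hasDerivAt_t ht hm).differentiableAt.hasDerivAt
    have dB := (F.smB.hasDerivAt_t ht hm).differentiableAt.hasDerivAt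
    simp only [H.Gm_zero]
    rw [F.ricci_eq ht H]
    refine ((((dW.const_mul _).add (dA.const_mul _)).const_mul _).add (dB.mul_const _)).deriv.trans ?_
    rw [e1, e2, e3]; ring
  · obtain ⟨C, hC⟩ := F.scal
    refine ⟨C, fun l h0 hA t ht => ?_⟩
    have H := hA.toBlk
    have P := F.sprof ht
    rw [H.scalar_Gm (n := (q : ℝ) + 1) (sum_e1 _) (by rw [sum_co_e1]; push_cast; ring) P.prof
      (F.ricci_eq ht H)]
    have hc : ContinuousOn (fun h => |2 * (R1 q (W t) (A t) (B t) h / W t h) +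
        ((q : ℝ) + 1 - 1) * (R2 q (W t) (A t) (B t) h / A t h) + (R2 q (W t) (A t) (B t) h +
          R3 q (W t) (A t) (B t) h * (1 - h ^ 2)) / SS (A t) (B t) h|) (Icc (-1 : ℝ) 1) := by
      refine ContinuousOn.abs (ContinuousOn.add (ContinuousOn.add
        (continuousOn_const.mul ((P.cR1 q).div P.sW.cont fun h hh => (P.pW h hh).ne'))
        (continuousOn_const.mul ((P.cR2 q).div P.sA.cont fun h hh => (P.pA h hh).ne')))
        (((P.cR2 q).add ((P.cR3 q).mul (by fun_prop))).div P.sS.cont fun h hh => (P.pS h hh).ne'))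
    have hcl : h0 ∈ closure (Ioo (-1 : ℝ) 1) := by
      rw [closure_Ioo (by norm_num)]; exact H.h0_mem
    have key := ContinuousWithinAt.closure_le (g := fun _ => C) hcl
      ((hc h0 H.h0_mem).mono Ioo_subset_Icc_self) continuousWithinAt_const
    refine key fun h hh => ?_
    have hc' : h ∈ Icc (-1 : ℝ) 1 := Ioo_subset_Icc_self hh
    obtain ⟨i1, i2, i3⟩ := P.interior q hh
    have hW := (P.pW h hc').ne'
    have hA := (P.pA h hc').ne'
    have hS := (P.pS h hc').ne'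
    rw [← i3, ← i1, ← i2, mul_div_cancel_right₀ _ hW, mul_div_cancel_right₀ _ hA,
      mul_div_cancel_right₀ _ hS, add_sub_cancel_right]
    exact hC t ht h hh
  · have hpos : 0 < (|K| + 1)⁻¹ := by positivity
    have hev : ∀ᶠ t in 𝓝[<] T, W t (-1) < min 1 (|K| + 1)⁻¹ ∧ a < t :=
      (F.tip.eventually (gt_mem_nhds (lt_min one_pos hpos))).and
        (mem_nhdsWithin_of_mem_nhds (lt_mem_nhds F.lt))
    obtain ⟨t₀, ht₀, hsub⟩ := mem_nhdsLT_iff_exists_Ioo_subset.1 hev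
    refine ⟨t₀, ht₀, fun t h1 h2 l hA => ?_⟩
    obtain ⟨hw, hat⟩ := hsub ⟨h1, h2⟩
    have ht : t ∈ Ioo a T := ⟨hat, h2⟩
    have H := hA.toBlk
    have hm := H.h0_mem
    have P := F.sprof ht
    have h3 := H.rm_pole (by norm_num) P.prof (P.scwW.diff hm).hasDerivAt
      (P.scwA.diff hm).hasDerivAt (P.scb1.diff hm).hasDerivAt (P.scb.diff hm).hasDerivAt
      (P.scc.diff hm).hasDerivAt (i := ⟨0, by omega⟩) (j := ⟨1, by omega⟩) (by simp)
      (by simp [e1]) (by simp [e1])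
    refine lt_of_lt_of_le ?_ h3
    have hW := P.pW _ hm
    have h4 : |K| + 1 < (W t (-1))⁻¹ := by
      rw [lt_inv_comm₀ (by positivity) hW]; exact hw.trans_le (min_le_right _ _)
    have h5 := le_abs_self K
    have h6 := abs_nonneg K
    nlinarith

end RedFlow

/-- **G1**. -/
theorem g1 : G1 := fun _ _ _ _ _ _ F => F.chartFlow

end Crest.Agent.N207.S.Geo

end
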