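import Crest.Prelude.Def_MetricFamily
/-!
Row 207, statement S0320: GEOMETRY interface (helper81).

Metrics `g = ds² + W g_{S²} + P g_{S^q}` on `S² × S^(q+1)`, described in a coordinate `x` on the
orbit interval with `Z = |∇ x|²` (so `ds² = dx²/Z`).  `ra, rb, rc` are the eigenvalues of `Ric` on
the `S²` directions, the `S^q` directions and `∂_s`; `R = 2 ra + q rb + rc`.

* `GaugeSol q a T W X z Y v` : what the analysis delivers, coordinate `ξ ∈ [0,1]`, moving gauge,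
  `P = 4ξ(1-ξ)X`, `Z = ξ(1-ξ)z`, material velocity `V = ξ(1-ξ)v`, times `t ∈ (a,T)`.
* `RedFlow q a T W A B` : material coordinate `h ∈ [-1,1]` (height on `S^(q+1)`),
  `g = W(h) g_{S²} + A(h) g_{S^(q+1)} + B(h) dh²`, so `P = A(1-h²)`, `Z = (1-h²)/S`, `S = A+B(1-h²)`.
* `Gm ε l h0 W A B` : that metric in the stereographic chart centred at a point of height `h0`.

G3 : `GaugeSol → RedFlow`.  Formulas: `ξ0=(1+h)/2`, `p=ξ0(1-ξ0)`, `logit ξ = logit ξ0 + ρ`, i.e.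
`ξ = ξ0 e^ρ/D`, `D = 1-ξ0+ξ0 e^ρ`, `ρ_t = v(t,ξ)`, `ρ = 0` at one time; `E = e^ρ/D²`,
`ξ(1-ξ) = pE`, `ξ_h = E(1+2pρ_h)/2`; `W(t,h) = W(t,ξ)`, `A = E X(t,ξ)`,
`B = E (ρ_h + p ρ_h² + E Y/4)/z`, `S = E(1+2pρ_h)²/z`.
G1 : `RedFlow → ChartFlow` (coordinate computation at the chart centre).
G2 : `RedFlow → ChartFlow → S0320` (manifold bridge, shift time by `(a+T)/2`).
-/

set_option autoImplicit false
open scoped ContDiff Topology
open Set Filter Crest.GeometryTopology.CoordMetric Crest.GeometryTopology.ChartCurvature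
  Crest.GeometryTopology.MetricFamily

noncomputable section

namespace Crest.Agent.N207.S.Geo

/-- `-φ_ss/φ` for `φ = √F`. -/
def kS (F F1 F2 Z Z1 : ℝ) : ℝ := -((Z * F2 + Z1 * F1 / 2) / (2 * F) - Z * F1 ^ 2 / (4 * F ^ 2))

/-- `(1-φ_s²)/φ²` for `φ = √F`. -/
def kT (F F1 Z : ℝ) : ℝ := 1 / F - Z * F1 ^ 2 / (4 * F ^ 2)

/-- `-φ_s ψ_s/(φψ)` for `φ = √W`, `ψ = √P`. -/
def kX (W W1 P P1 Z : ℝ) : ℝ := -(Z * W1 * P1 / (4 * W * P))

/-- Ricci eigenvalue on the `S²` directions. -/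
def ra (q : ℕ) (W W1 W2 P P1 Z Z1 : ℝ) : ℝ :=
  kS W W1 W2 Z Z1 + kT W W1 Z + q * kX W W1 P P1 Z

/-- Ricci eigenvalue on the `S^q` directions. -/
def rb (q : ℕ) (W W1 P P1 P2 Z Z1 : ℝ) : ℝ :=
  kS P P1 P2 Z Z1 + (q - 1) * kT P P1 Z + 2 * kX W W1 P P1 Z

/-- Ricci eigenvalue on `∂_s`. -/
def rc (q : ℕ) (W W1 W2 P P1 P2 Z Z1 : ℝ) : ℝ :=
  2 * kS W W1 W2 Z Z1 + q * kS P P1 P2 Z Z1

/-- `ra` of the profile functions at `x`. -/
def fa (q : ℕ) (W P Z : ℝ → ℝ) (x : ℝ) : ℝ :=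
  ra q (W x) (deriv W x) (deriv (deriv W) x) (P x) (deriv P x) (Z x) (deriv Z x)

/-- `rb` of the profile functions at `x`. -/
def fb (q : ℕ) (W P Z : ℝ → ℝ) (x : ℝ) : ℝ :=
  rb q (W x) (deriv W x) (P x) (deriv P x) (deriv (deriv P) x) (Z x) (deriv Z x)

/-- `rc` of the profile functions at `x`. -/
def fc (q : ℕ) (W P Z : ℝ → ℝ) (x : ℝ) : ℝ :=
  rc q (W x) (deriv W x) (deriv (deriv W) x) (P x) (deriv P x) (deriv (deriv P) x) (Z x) (deriv Z x)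

/-- Scalar curvature of the profile functions at `x`. -/
def fR (q : ℕ) (W P Z : ℝ → ℝ) (x : ℝ) : ℝ := 2 * fa q W P Z x + q * fb q W P Z x + fc q W P Z x

/-- The Ricci flow equations at `(t,x)` in a gauge whose material velocity is `V`. -/
structure Eqs (q : ℕ) (W P Z V : ℝ → ℝ → ℝ) (t x : ℝ) : Prop where
  eW : deriv (fun s => W s x) t + V t x * deriv (W t) x = -2 * fa q (W t) (P t) (Z t) x * W t x
  eP : deriv (fun s => P s x) t + V t x * deriv (P t) x = -2 * fb q (W t) (P t) (Z t) x * P t x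
  eZ : deriv (fun s => Z s x) t + V t x * deriv (Z t) x - 2 * deriv (V t) x * Z t x =
    2 * fc q (W t) (P t) (Z t) x * Z t x

/-- `c ξ(1-ξ) F`. -/
def bub (c : ℝ) (F : ℝ → ℝ → ℝ) : ℝ → ℝ → ℝ := fun t x => c * (x * (1 - x)) * F t x

/-- Joint smoothness on `(a,T) × [0,1]` (one-sided at `0, 1`). -/
def SmC (a T : ℝ) (F : ℝ → ℝ → ℝ) : Prop :=
  ContDiffOn ℝ ∞ (fun p : ℝ × ℝ => F p.1 p.2) (Ioo a T ×ˢ Icc 0 1)

/-- TOP INTERFACE analysis → geometry. -/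
structure GaugeSol (q : ℕ) (a T : ℝ) (W X z Y v : ℝ → ℝ → ℝ) : Prop where
  lt : a < T
  smW : SmC a T W
  smX : SmC a T X
  smz : SmC a T z
  smY : SmC a T Y
  smv : SmC a T v
  posW : ∀ t ∈ Ioo a T, ∀ x ∈ Icc (0 : ℝ) 1, 0 < W t x
  posX : ∀ t ∈ Ioo a T, ∀ x ∈ Icc (0 : ℝ) 1, 0 < X t x
  posz : ∀ t ∈ Ioo a T, ∀ x ∈ Icc (0 : ℝ) 1, 0 < z t x
  pole : ∀ t ∈ Ioo a T, ∀ x ∈ Icc (0 : ℝ) 1, 1 - X t x * z t x = x * (1 - x) * Y t x
  eqs : ∀ t ∈ Ioo a T, ∀ x ∈ Ioo (0 : ℝ) 1, Eqs q W (bub 4 X) (bub 1 z) (bub 1 v) t x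
  scal : ∃ C : ℝ, ∀ t ∈ Ioo a T, ∀ x ∈ Ioo (0 : ℝ) 1, |fR q (W t) (bub 4 X t) (bub 1 z t) x| ≤ C
  tip : Tendsto (fun t => W t 0) (𝓝[<] T) (𝓝 0)

/-- Joint smoothness in a neighbourhood of every point of `(a,T) × [-1,1]`. -/
def SmH (a T : ℝ) (F : ℝ → ℝ → ℝ) : Prop :=
  ∀ t ∈ Ioo a T, ∀ h ∈ Icc (-1 : ℝ) 1, ContDiffAt ℝ ∞ (fun p : ℝ × ℝ => F p.1 p.2) (t, h)

/-- `P = A (1-h²)`. -/
def redP (A : ℝ → ℝ → ℝ) : ℝ → ℝ → ℝ := fun t h => A t h * (1 - h ^ 2)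

/-- `Z = (1-h²)/(A + B(1-h²))`. -/
def redZ (A B : ℝ → ℝ → ℝ) : ℝ → ℝ → ℝ := fun t h => (1 - h ^ 2) / (A t h + B t h * (1 - h ^ 2))

/-- The flow in the material height coordinate. -/
structure RedFlow (q : ℕ) (a T : ℝ) (W A B : ℝ → ℝ → ℝ) : Prop where
  lt : a < T
  smW : SmH a T W
  smA : SmH a T A
  smB : SmH a T B
  posW : ∀ t ∈ Ioo a T, ∀ h ∈ Icc (-1 : ℝ) 1, 0 < W t h
  posA : ∀ t ∈ Ioo a T, ∀ h ∈ Icc (-1 : ℝ) 1, 0 < A t h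
  posS : ∀ t ∈ Ioo a T, ∀ h ∈ Icc (-1 : ℝ) 1, 0 < A t h + B t h * (1 - h ^ 2)
  eqs : ∀ t ∈ Ioo a T, ∀ h ∈ Ioo (-1 : ℝ) 1, Eqs q W (redP A) (redZ A B) (fun _ _ => 0) t h
  scal : ∃ C : ℝ, ∀ t ∈ Ioo a T, ∀ h ∈ Ioo (-1 : ℝ) 1, |fR q (W t) (redP A t) (redZ A B t) h| ≤ C
  tip : Tendsto (fun t => W t (-1)) (𝓝[<] T) (𝓝 0)

section Chart

variable {m : ℕ}

/-- Weighted squared norm `Σ ε_i y_i²` (with `ε` the indicator of a block of coordinates). -/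
def nsq (ε : Fin m → ℝ) (y : EuclideanSpace ℝ (Fin m)) : ℝ := ∑ i, ε i * y i ^ 2

/-- Conformal factor of the round metric in the stereographic chart. -/
def rnd (ε : Fin m → ℝ) (y : EuclideanSpace ℝ (Fin m)) : ℝ := 16 / (nsq ε y + 4) ^ 2

/-- The complementary block. -/
def co (ε : Fin m → ℝ) : Fin m → ℝ := fun i => 1 - ε i

/-- The height function in the stereographic chart of the second sphere (`ε` = first block). -/
def hh (ε l : Fin m → ℝ) (h0 : ℝ) (y : EuclideanSpace ℝ (Fin m)) : ℝ :=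
  (4 * ∑ i, l i * y i + (4 - nsq (co ε) y) * h0) / (nsq (co ε) y + 4)

/-- The metric `W(h) g_{S²} + A(h) g_{S^(q+1)} + B(h) dh²` in the product stereographic chart. -/
def Gm (ε l : Fin m → ℝ) (h0 : ℝ) (W A B : ℝ → ℝ) : MetricField m := fun y =>
  Matrix.of fun i j =>
    (if i = j then ε i * (W (hh ε l h0 y) * rnd ε y) + co ε i * (A (hh ε l h0 y) * rnd (co ε) y)
      else 0) + B (hh ε l h0 y) * (pderiv i (hh ε l h0) y * pderiv j (hh ε l h0) y)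

end Chart

/-- Indicator of the first block (the `S²` coordinates) in `Fin (2 + n)`. -/
def e1 (n : ℕ) : Fin (2 + n) → ℝ := fun i => if i.val < 2 then 1 else 0

/-- Admissible chart data: `l` = tangential part of the axis, `h0` = height of the centre. -/
structure Adm (n : ℕ) (l : Fin (2 + n) → ℝ) (h0 : ℝ) : Prop where
  blk : ∀ i : Fin (2 + n), i.val < 2 → l i = 0
  nrm : ∑ i, l i ^ 2 = 1 - h0 ^ 2

/-- What G1 delivers to G2. -/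
structure ChartFlow (q : ℕ) (a T : ℝ) (W A B : ℝ → ℝ → ℝ) : Prop where
  flow : ∀ l h0, Adm (q + 1) l h0 → ∀ t ∈ Ioo a T, ∀ i j,
    deriv (fun s => Gm (e1 (q + 1)) l h0 (W s) (A s) (B s) 0 i j) t =
      -2 * ricci (Gm (e1 (q + 1)) l h0 (W t) (A t) (B t)) 0 i j
  scal : ∃ C : ℝ, ∀ l h0, Adm (q + 1) l h0 → ∀ t ∈ Ioo a T,
    |scalarCurv (Gm (e1 (q + 1)) l h0 (W t) (A t) (B t)) 0| ≤ C
  blow : ∀ K : ℝ, ∃ t₀ < T, ∀ t, t₀ < t → t < T → ∀ l, Adm (q + 1) l (-1) →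
    K < rmNormSq (Gm (e1 (q + 1)) l (-1) (W t) (A t) (B t)) 0

/-- G1 (helper81). -/
def G1 : Prop := ∀ q a T W A B, RedFlow q a T W A B → ChartFlow q a T W A B

/-- G3. -/
def G3 : Prop := ∀ q a T W X z Y v, GaugeSol q a T W X z Y v →
  ∃ a' W' A B, RedFlow q a' T W' A B

end Crest.Agent.N207.S.Geo

end
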