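import Mathlib

/-!
Row 207, S0320, geometry part G2 (helper49), file 1: the preferred charts of the round sphere.
-/

set_option autoImplicit false

open scoped ContDiff Manifold Topology InnerProductSpace
open Set Filter

noncomputable section

namespace Crest.Agent.N207.S.Gb

abbrev En (n : ℕ) : Type := EuclideanSpace ℝ (Fin n)

abbrev Sp (n : ℕ) : Type := Metric.sphere (0 : EuclideanSpace ℝ (Fin (n + 1))) 1

variable {n : ℕ}

instance factFin (n : ℕ) : Fact (Module.finrank ℝ (En (n + 1)) = n + 1) :=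
  ⟨finrank_euclideanSpace_fin⟩

/-- the linear isometry `ℝⁿ → v^⊥` used by the preferred chart at `v` -/
def Ui (v : Sp n) : En n →ₗᵢ[ℝ] En (n + 1) :=
  ((ℝ ∙ ((-v : Sp n) : En (n + 1)))ᗮ.subtypeₗᵢ).comp
    (OrthonormalBasis.fromOrthogonalSpanSingleton n
      (ne_zero_of_mem_unit_sphere (-v))).repr.symm.toLinearIsometry

/-- the same as a continuous linear map -/
def Uc (v : Sp n) : En n →L[ℝ] En (n + 1) := (Ui v).toContinuousLinearMap

theorem Uc_apply (v : Sp n) (y : En n) : Uc v y = Ui v y := rfl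

theorem inner_Uc (v : Sp n) (y z : En n) : ⟪Uc v y, Uc v z⟫_ℝ = ⟪y, z⟫_ℝ :=
  (Ui v).inner_map_map y z

theorem norm_Uc (v : Sp n) (y : En n) : ‖Uc v y‖ = ‖y‖ := (Ui v).norm_map y

theorem inner_v_Uc (v : Sp n) (y : En n) : ⟪(v : En (n + 1)), Uc v y⟫_ℝ = 0 := by
  have h := ((OrthonormalBasis.fromOrthogonalSpanSingleton n
      (ne_zero_of_mem_unit_sphere (-v))).repr.symm y).2
  rw [Submodule.mem_orthogonal_singleton_iff_inner_right] at h
  have h2 : ⟪-(v : En (n + 1)), Uc v y⟫_ℝ = 0 := h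
  rwa [inner_neg_left, neg_eq_zero] at h2

theorem inner_Uc_v (v : Sp n) (y : En n) : ⟪Uc v y, (v : En (n + 1))⟫_ℝ = 0 := by
  rw [real_inner_comm]; exact inner_v_Uc v y

theorem inner_v_v (v : Sp n) : ⟪(v : En (n + 1)), (v : En (n + 1))⟫_ℝ = 1 := by
  rw [real_inner_self_eq_norm_sq, norm_eq_of_mem_sphere]; norm_num

/-- every vector orthogonal to `v` is in the range of `Uc v` -/
theorem exists_Uc (v : Sp n) {w : En (n + 1)} (hw : ⟪(v : En (n + 1)), w⟫_ℝ = 0) :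
    ∃ y, Uc v y = w := by
  have h : w ∈ (ℝ ∙ ((-v : Sp n) : En (n + 1)))ᗮ := by
    rw [Submodule.mem_orthogonal_singleton_iff_inner_right]
    show ⟪-(v : En (n + 1)), w⟫_ℝ = 0
    rw [inner_neg_left, hw, neg_zero]
  refine ⟨(OrthonormalBasis.fromOrthogonalSpanSingleton n
      (ne_zero_of_mem_unit_sphere (-v))).repr ⟨w, h⟩, ?_⟩
  show (((OrthonormalBasis.fromOrthogonalSpanSingleton n
      (ne_zero_of_mem_unit_sphere (-v))).repr.symm _ : _) : En (n + 1)) = w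
  rw [LinearIsometryEquiv.symm_apply_apply]

/-- the inverse chart as a map to the ambient space -/
def Sm (v : Sp n) (y : En n) : En (n + 1) :=
  (4 / (‖y‖ ^ 2 + 4)) • Uc v y + ((4 - ‖y‖ ^ 2) / (‖y‖ ^ 2 + 4)) • (v : En (n + 1))

theorem chart_eq (v : Sp n) : chartAt (En n) v = stereographic' n (-v) := rfl

theorem chart_symm (v : Sp n) (y : En n) :
    (((chartAt (En n) v).symm y : Sp n) : En (n + 1)) = Sm v y := by
  rw [chart_eq, stereographic'_symm_apply]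
  show (‖Uc v y‖ ^ 2 + 4)⁻¹ • (4 : ℝ) • Uc v y
    + (‖Uc v y‖ ^ 2 + 4)⁻¹ • (‖Uc v y‖ ^ 2 - 4) • (-(v : En (n + 1))) = _
  simp only [norm_Uc, Sm, smul_smul, smul_neg, ← neg_smul]
  congr 2
  · ring
  · ring

theorem chart_target (v : Sp n) : (chartAt (En n) v).target = univ := by
  rw [chart_eq, stereographic'_target]

theorem Sm_zero (v : Sp n) : Sm v 0 = v := by
  simp [Sm]

theorem chart_self (v : Sp n) : chartAt (En n) v v = 0 := by
  have h1 : (chartAt (En n) v).symm 0 = v := Subtype.ext (by rw [chart_symm, Sm_zero])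
  have h2 := (chartAt (En n) v).right_inv (x := 0) (by rw [chart_target]; trivial)
  rwa [h1] at h2

theorem den_pos (y : En n) : 0 < ‖y‖ ^ 2 + 4 := by positivity

theorem contDiff_nsq {k : ℕ∞ω} : ContDiff ℝ k fun y : En n => ‖y‖ ^ 2 := contDiff_norm_sq ℝ

theorem contDiff_Sm (v : Sp n) {k : ℕ∞ω} : ContDiff ℝ k (Sm v) := by
  unfold Sm
  refine ContDiff.add (ContDiff.fun_smul ?_ (Uc v).contDiff) (ContDiff.fun_smul ?_ contDiff_const)
  · exact contDiff_const.div (contDiff_nsq.add contDiff_const) fun y => (den_pos y).ne'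
  · exact (contDiff_const.sub contDiff_nsq).div (contDiff_nsq.add contDiff_const)
      fun y => (den_pos y).ne'

/-- the derivative of the inverse chart -/
theorem fderiv_Sm (v : Sp n) (y X : En n) :
    fderiv ℝ (Sm v) y X = (4 / (‖y‖ ^ 2 + 4)) • Uc v X
      - (8 * ⟪y, X⟫_ℝ / (‖y‖ ^ 2 + 4) ^ 2) • Uc v y
      - (16 * ⟪y, X⟫_ℝ / (‖y‖ ^ 2 + 4) ^ 2) • (v : En (n + 1)) := by
  have hd := (den_pos y).ne'
  have hl : HasDerivAt (fun s : ℝ => y + s • X) X 0 := by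
    simpa using ((hasDerivAt_id (0 : ℝ)).smul_const X).const_add y
  have h0 : HasDerivAt (fun s : ℝ => Sm v (y + s • X)) (fderiv ℝ (Sm v) y X) 0 := by
    have h1 : HasFDerivAt (Sm v) (fderiv ℝ (Sm v) y) (y + (0 : ℝ) • X) := by
      rw [zero_smul, add_zero]
      exact ((contDiff_Sm v (k := 1)).differentiable one_ne_zero y).hasFDerivAt
    exact h1.comp_hasDerivAt 0 hl
  have hn : HasDerivAt (fun s : ℝ => ‖y + s • X‖ ^ 2) (2 * ⟪y, X⟫_ℝ) 0 := by
    simpa using hl.norm_sq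
  have hU : HasDerivAt (fun s : ℝ => Uc v (y + s • X)) (Uc v X) 0 :=
    (Uc v).hasFDerivAt.comp_hasDerivAt 0 hl
  have hne : ‖y + (0 : ℝ) • X‖ ^ 2 + 4 ≠ 0 := (den_pos _).ne'
  have ha := (hasDerivAt_const (0 : ℝ) (4 : ℝ)).div (hn.add_const 4) hne
  have hb := (hn.const_sub 4).div (hn.add_const 4) hne
  have h2 := (ha.smul hU).add (hb.smul_const (v : En (n + 1)))
  have h3 := h0.unique h2
  rw [h3]
  simp only [zero_smul, add_zero, Pi.div_apply]
  have e1 : (0 * (‖y‖ ^ 2 + 4) - 4 * (2 * ⟪y, X⟫_ℝ)) / (‖y‖ ^ 2 + 4) ^ 2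
      = -(8 * ⟪y, X⟫_ℝ / (‖y‖ ^ 2 + 4) ^ 2) := by ring
  have e2 : (-(2 * ⟪y, X⟫_ℝ) * (‖y‖ ^ 2 + 4) - (4 - ‖y‖ ^ 2) * (2 * ⟪y, X⟫_ℝ)) / (‖y‖ ^ 2 + 4) ^ 2
      = -(16 * ⟪y, X⟫_ℝ / (‖y‖ ^ 2 + 4) ^ 2) := by ring
  rw [e1, e2, neg_smul, neg_smul]
  abel

/-- the round metric in the chart -/
theorem inner_fderiv_Sm (v : Sp n) (y X Y : En n) :
    ⟪fderiv ℝ (Sm v) y X, fderiv ℝ (Sm v) y Y⟫_ℝ = 16 / (‖y‖ ^ 2 + 4) ^ 2 * ⟪X, Y⟫_ℝ := by
  have hd := (den_pos y).ne'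
  rw [fderiv_Sm, fderiv_Sm]
  simp only [inner_sub_left, inner_sub_right, inner_smul_left, inner_smul_right, inner_Uc,
    inner_Uc_v, inner_v_Uc, conj_trivial, real_inner_self_eq_norm_sq, norm_Uc,
    norm_eq_of_mem_sphere, real_inner_comm y X]
  field_simp
  ring

theorem norm_Sm (v : Sp n) (y : En n) : ‖Sm v y‖ = 1 := by
  rw [← chart_symm]; exact norm_eq_of_mem_sphere _

/-- the covector `l` with `(Uc v y) 0 = ⟪l, y⟫` -/
def lv (v : Sp n) : En n := ContinuousLinearMap.adjoint (Uc v) (EuclideanSpace.single 0 1)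

theorem inner_lv (v : Sp n) (y : En n) : ⟪lv v, y⟫_ℝ = Uc v y 0 := by
  rw [lv, ContinuousLinearMap.adjoint_inner_left, EuclideanSpace.inner_single_left]
  simp

theorem lv_apply (v : Sp n) (i : Fin n) : lv v i = Uc v (EuclideanSpace.single i 1) 0 := by
  rw [← inner_lv, EuclideanSpace.inner_single_right]; simp

theorem norm_lv (v : Sp n) : ‖lv v‖ ^ 2 = 1 - (v : En (n + 1)) 0 ^ 2 := by
  set e : En (n + 1) := EuclideanSpace.single 0 1 with he
  have hve : ⟪(v : En (n + 1)), e⟫_ℝ = (v : En (n + 1)) 0 := by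
    rw [he, EuclideanSpace.inner_single_right]; simp
  obtain ⟨y, hy⟩ := exists_Uc v (w := e - (v : En (n + 1)) 0 • (v : En (n + 1))) (by
    rw [inner_sub_right, inner_smul_right, inner_v_v, hve]; ring)
  have h1 : lv v = y := by
    refine ext_inner_right ℝ fun z => ?_
    rw [lv, ContinuousLinearMap.adjoint_inner_left, ← inner_Uc v y z, hy, inner_sub_left,
      inner_smul_left, inner_v_Uc]
    simp [he]
  rw [← real_inner_self_eq_norm_sq, inner_lv, h1, hy]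
  simp [he]
  ring

/-- the height function in the chart -/
theorem Sm_apply_zero (v : Sp n) (y : En n) :
    Sm v y 0 = (4 * ⟪lv v, y⟫_ℝ + (4 - ‖y‖ ^ 2) * (v : En (n + 1)) 0) / (‖y‖ ^ 2 + 4) := by
  rw [inner_lv]
  simp only [Sm, PiLp.add_apply, PiLp.smul_apply, smul_eq_mul]
  ring

theorem abs_coord_le (v : Sp n) : |(v : En (n + 1)) 0| ≤ 1 := by
  have h := PiLp.norm_apply_le (v : En (n + 1)) 0
  rwa [norm_eq_of_mem_sphere, Real.norm_eq_abs] at h

end Crest.Agent.N207.S.Gb
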