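import Crest.Prelude.Def_MetricFamily
import Crest.Agent.N207.S.Gb1

/-!
Row 207, S0320, geometry part G2 (helper49), file 2: the family of forms on `S² × S^(q+1)` and its
coefficients in the preferred charts.
-/

set_option autoImplicit false

open scoped ContDiff Manifold Topology InnerProductSpace
open Set Filter
open Crest.GeometryTopology.CoordMetric Crest.GeometryTopology.MetricFamily

noncomputable section

namespace Crest.Agent.N207.S.Gb

abbrev II (q : ℕ) := (𝓡 2).prod (𝓡 (q + 1))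

abbrev MM (q : ℕ) : Type := Sp 2 × Sp (q + 1)

abbrev EH (q : ℕ) : Type := En 2 × En (q + 1)

abbrev ph (q : ℕ) : EH q ≃L[ℝ] En (2 + (q + 1)) :=
  (@EuclideanSpace.finAddEquivProd ℝ _ 2 (q + 1)).symm

variable {q : ℕ}

/-- the real inner product as a continuous bilinear map -/
def ip (n : ℕ) : En n →L[ℝ] En n →L[ℝ] ℝ := innerSL ℝ

theorem ip_apply {n : ℕ} (X Y : En n) : ip n X Y = ⟪X, Y⟫_ℝ := rfl

def i1 (p : MM q) : En (2 + 1) := p.1

def i2 (p : MM q) : En (q + 1 + 1) := p.2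

def D1 (x : MM q) : EH q →L[ℝ] En (2 + 1) := mfderiv (II q) 𝓘(ℝ, En (2 + 1)) i1 x

def D2 (x : MM q) : EH q →L[ℝ] En (q + 1 + 1) := mfderiv (II q) 𝓘(ℝ, En (q + 1 + 1)) i2 x

def dh (x : MM q) : EH q →L[ℝ] ℝ :=
  (EuclideanSpace.proj (0 : Fin (q + 1 + 1)) : En (q + 1 + 1) →L[ℝ] ℝ).comp (D2 x)

/-- `w g_{S²} + a g_{round} + b dh²` -/
def form (w a b : ℝ) (x : MM q) : EH q →L[ℝ] EH q →L[ℝ] ℝ :=
  w • (ip _).bilinearComp (D1 x) (D1 x) + a • (ip _).bilinearComp (D2 x) (D2 x)
    + b • (ContinuousLinearMap.mul ℝ ℝ).bilinearComp (dh x) (dh x)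

theorem form_apply (w a b : ℝ) (x : MM q) (X Y : EH q) :
    form w a b x X Y = w * ⟪D1 x X, D1 x Y⟫_ℝ + a * ⟪D2 x X, D2 x Y⟫_ℝ
      + b * (D2 x X 0 * D2 x Y 0) := by
  simp [form, ip_apply, dh]

/-- the height -/
def ht (x : MM q) : ℝ := (x.2 : En (q + 1 + 1)) 0

/-- the family of forms -/
def fam (q : ℕ) (W A B : ℝ → ℝ → ℝ) : FormFamily (II q) (MM q) :=
  fun t x => form (W t (ht x)) (A t (ht x)) (B t (ht x)) x

theorem contMDiff_i1 : ContMDiff (II q) 𝓘(ℝ, En (2 + 1)) ∞ (i1 (q := q)) :=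
  contMDiff_coe_sphere.comp contMDiff_fst

theorem contMDiff_i2 : ContMDiff (II q) 𝓘(ℝ, En (q + 1 + 1)) ∞ (i2 (q := q)) :=
  contMDiff_coe_sphere.comp contMDiff_snd

theorem ext_symm (x : MM q) (z : EH q) :
    (extChartAt (II q) x).symm z
      = ((chartAt (En 2) x.1).symm z.1, (chartAt (En (q + 1)) x.2).symm z.2) := by
  rw [extChartAt_prod]
  simp [PartialEquiv.prod_symm]

theorem ext_target (x : MM q) : (extChartAt (II q) x).target = univ := by
  rw [extChartAt_prod]
  simp [chart_target]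

theorem ext_self (x : MM q) : extChartAt (II q) x x = 0 := by
  rw [extChartAt_prod]
  simp [chart_self]

theorem famCentre_eq (x : MM q) : famCentre (II q) (ph q) (MM q) x = 0 := by
  rw [famCentre, ext_self, map_zero]

theorem famTarget_eq (x : MM q) : famTarget (II q) (ph q) (MM q) x = univ := by
  ext y
  simp only [famTarget, ext_target, mem_univ, mem_ofPred_eq]

theorem mdiff_symm (x : MM q) (z : EH q) :
    MDifferentiableAt 𝓘(ℝ, EH q) (II q) (extChartAt (II q) x).symm z := by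
  have h := contMDiffOn_extChartAt_symm (I := II q) (n := ∞) x
  rw [ext_target] at h
  exact (contMDiffOn_univ.1 h z).mdifferentiableAt (by simp)

theorem D1_chain (x : MM q) (z X : EH q) :
    D1 ((extChartAt (II q) x).symm z)
      (mfderiv 𝓘(ℝ, EH q) (II q) (extChartAt (II q) x).symm z X) = fderiv ℝ (Sm x.1) z.1 X.1 := by
  have h1 := mfderiv_comp z ((contMDiff_i1 (q := q) _).mdifferentiableAt (by simp)) (mdiff_symm x z)
  have h2 : i1 ∘ (extChartAt (II q) x).symm = fun z : EH q => Sm x.1 z.1 := by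
    funext z
    simp only [Function.comp, ext_symm, i1, chart_symm]
  have h3 : HasFDerivAt (fun z : EH q => Sm x.1 z.1)
      ((fderiv ℝ (Sm x.1) z.1).comp (ContinuousLinearMap.fst ℝ _ _)) z :=
    ((contDiff_Sm x.1 (k := 1)).differentiable one_ne_zero z.1).hasFDerivAt.comp z hasFDerivAt_fst
  rw [h2, mfderiv_eq_fderiv, h3.fderiv] at h1
  exact (congrArg (fun L : EH q →L[ℝ] En (2 + 1) => L X) h1).symm

theorem D2_chain (x : MM q) (z X : EH q) :
    D2 ((extChartAt (II q) x).symm z)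
      (mfderiv 𝓘(ℝ, EH q) (II q) (extChartAt (II q) x).symm z X) = fderiv ℝ (Sm x.2) z.2 X.2 := by
  have h1 := mfderiv_comp z ((contMDiff_i2 (q := q) _).mdifferentiableAt (by simp)) (mdiff_symm x z)
  have h2 : i2 ∘ (extChartAt (II q) x).symm = fun z : EH q => Sm x.2 z.2 := by
    funext z
    simp only [Function.comp, ext_symm, i2, chart_symm]
  have h3 : HasFDerivAt (fun z : EH q => Sm x.2 z.2)
      ((fderiv ℝ (Sm x.2) z.2).comp (ContinuousLinearMap.snd ℝ _ _)) z :=
    ((contDiff_Sm x.2 (k := 1)).differentiable one_ne_zero z.2).hasFDerivAt.comp z hasFDerivAt_snd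
  rw [h2, mfderiv_eq_fderiv, h3.fderiv] at h1
  exact (congrArg (fun L : EH q →L[ℝ] En (q + 1 + 1) => L X) h1).symm

theorem ht_symm (x : MM q) (z : EH q) : ht ((extChartAt (II q) x).symm z) = Sm x.2 z.2 0 := by
  rw [ext_symm, ht, chart_symm]

/-- **the coefficients of the family in the preferred chart** -/
theorem famCoeff_fam (W A B : ℝ → ℝ → ℝ) (x : MM q) (t : ℝ) (y : En (2 + (q + 1)))
    (i j : Fin (2 + (q + 1))) :
    famCoeff (II q) (ph q) (MM q) (fam q W A B) x t y i j =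
      W t (Sm x.2 ((ph q).symm y).2 0) * (16 / (‖((ph q).symm y).1‖ ^ 2 + 4) ^ 2 *
        ⟪((ph q).symm (EuclideanSpace.single i 1)).1, ((ph q).symm (EuclideanSpace.single j 1)).1⟫_ℝ)
      + A t (Sm x.2 ((ph q).symm y).2 0) * (16 / (‖((ph q).symm y).2‖ ^ 2 + 4) ^ 2 *
        ⟪((ph q).symm (EuclideanSpace.single i 1)).2, ((ph q).symm (EuclideanSpace.single j 1)).2⟫_ℝ)
      + B t (Sm x.2 ((ph q).symm y).2 0) *
        (fderiv ℝ (Sm x.2) ((ph q).symm y).2 ((ph q).symm (EuclideanSpace.single i 1)).2 0 *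
          fderiv ℝ (Sm x.2) ((ph q).symm y).2 ((ph q).symm (EuclideanSpace.single j 1)).2 0) := by
  have h := form_apply (W t (ht ((extChartAt (II q) x).symm ((ph q).symm y))))
    (A t (ht ((extChartAt (II q) x).symm ((ph q).symm y))))
    (B t (ht ((extChartAt (II q) x).symm ((ph q).symm y))))
    ((extChartAt (II q) x).symm ((ph q).symm y))
    (mfderiv 𝓘(ℝ, EH q) (II q) (extChartAt (II q) x).symm ((ph q).symm y)
      ((ph q).symm (EuclideanSpace.single i 1)))
    (mfderiv 𝓘(ℝ, EH q) (II q) (extChartAt (II q) x).symm ((ph q).symm y)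
      ((ph q).symm (EuclideanSpace.single j 1)))
  rw [D1_chain, D1_chain, D2_chain, D2_chain, inner_fderiv_Sm, inner_fderiv_Sm, ht_symm] at h
  rw [← ht_symm x] at h ⊢
  exact h

end Crest.Agent.N207.S.Gb
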