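import Crest.Agent.N207.S.Gb2

/-!
Row 207, S0320, geometry part G2 (helper49), file 3: the family is a smooth family of metrics.
-/

set_option autoImplicit false

open scoped ContDiff Manifold Topology InnerProductSpace
open Set Filter
open Crest.GeometryTopology.CoordMetric Crest.GeometryTopology.MetricFamily

noncomputable section

namespace Crest.Agent.N207.S.Gb

variable {q n : ℕ}

theorem Sm_mem (v : Sp n) (y : En n) : Sm v y 0 ∈ Icc (-1 : ℝ) 1 := by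
  rw [← chart_symm]
  exact abs_le.1 (abs_coord_le _)

theorem inner_Sm_fderiv (v : Sp n) (y X : En n) : ⟪Sm v y, fderiv ℝ (Sm v) y X⟫_ℝ = 0 := by
  have hd := (den_pos y).ne'
  rw [fderiv_Sm, Sm]
  simp only [inner_sub_right, inner_add_left, inner_smul_left, inner_smul_right, inner_Uc,
    inner_Uc_v, inner_v_Uc, conj_trivial, real_inner_self_eq_norm_sq, norm_Uc,
    norm_eq_of_mem_sphere]
  field_simp
  ring

/-- a tangent vector `T` at a point `p` of the unit sphere has `T₀² ≤ (1 - p₀²) |T|²` -/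
theorem coord_sq_le {p T : En (n + 1)} (hp : ‖p‖ = 1) (hT : ⟪p, T⟫_ℝ = 0) :
    T 0 * T 0 ≤ (1 - p 0 ^ 2) * ⟪T, T⟫_ℝ := by
  set e : En (n + 1) := EuclideanSpace.single 0 1 with he
  have h1 : ∀ w : En (n + 1), ⟪e, w⟫_ℝ = w 0 := fun w => by
    rw [he, EuclideanSpace.inner_single_left]; simp
  have h2 : ⟪e - p 0 • p, T⟫_ℝ = T 0 := by
    rw [inner_sub_left, inner_smul_left, hT, h1]; simp
  have h3 : ⟪e - p 0 • p, e - p 0 • p⟫_ℝ = 1 - p 0 ^ 2 := by
    have h4 : ⟪p, p⟫_ℝ = 1 := by rw [real_inner_self_eq_norm_sq, hp]; norm_num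
    have h5 : e 0 = 1 := by simp [he]
    simp only [inner_sub_left, inner_sub_right, inner_smul_left, inner_smul_right, conj_trivial,
      h1, h4, h5, real_inner_comm e p]
    ring
  have h6 := real_inner_mul_inner_self_le (e - p 0 • p) T
  rwa [h2, h3] at h6

theorem sum_single (v : Fin n → ℝ) :
    (WithLp.toLp 2 v : En n) = ∑ i, v i • (EuclideanSpace.single i 1 : En n) := by
  ext k
  simp [Pi.single_apply]

/-- the Gram matrix of a symmetric form which is positive on the range of `L` -/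
theorem posDef_gram {E : Type*} [NormedAddCommGroup E] [NormedSpace ℝ E]
    (F : E →L[ℝ] E →L[ℝ] ℝ) (L : En n →L[ℝ] E) (hs : ∀ X Y, F X Y = F Y X)
    (hp : ∀ v, v ≠ 0 → 0 < F (L v) (L v)) :
    (Matrix.of fun i j : Fin n =>
      F (L (EuclideanSpace.single i 1)) (L (EuclideanSpace.single j 1))).PosDef := by
  refine Matrix.PosDef.of_dotProduct_mulVec_pos ?_ ?_
  · ext i j
    simp only [Matrix.conjTranspose_apply, star_trivial, Matrix.of_apply]
    exact hs _ _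
  · intro v hv
    have hv' : (WithLp.toLp 2 v : En n) ≠ 0 := by
      intro h0
      apply hv
      have := congrArg WithLp.ofLp h0
      simpa using this
    have h := hp _ hv'
    rw [sum_single] at h
    simp only [map_sum, map_smul, sum_apply, smul_apply,
      smul_eq_mul] at h
    simp only [dotProduct, Matrix.mulVec, Matrix.of_apply, star_trivial]
    refine h.trans_eq (Finset.sum_congr rfl fun i _ => ?_)
    congr 1
    exact Finset.sum_congr rfl fun j _ => by rw [hs]; ring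

theorem form_symm (w a b : ℝ) (x : MM q) (X Y : EH q) : form w a b x X Y = form w a b x Y X := by
  rw [form_apply, form_apply, real_inner_comm (D1 x X), real_inner_comm (D2 x X)]; ring

theorem posDef_fam {W A B : ℝ → ℝ → ℝ} {t : ℝ} (hW : ∀ h ∈ Icc (-1 : ℝ) 1, 0 < W t h)
    (hA : ∀ h ∈ Icc (-1 : ℝ) 1, 0 < A t h)
    (hB : ∀ h ∈ Icc (-1 : ℝ) 1, 0 < A t h + B t h * (1 - h ^ 2)) (x : MM q)
    (y : En (2 + (q + 1))) : (famCoeff (II q) (ph q) (MM q) (fam q W A B) x t y).PosDef := by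
  set z := (ph q).symm y with hz
  set p := (extChartAt (II q) x).symm z with hp
  let L0 : EH q →L[ℝ] EH q := mfderiv 𝓘(ℝ, EH q) (II q) (extChartAt (II q) x).symm z
  let L : En (2 + (q + 1)) →L[ℝ] EH q := L0.comp ((ph q).symm : En (2 + (q + 1)) →L[ℝ] EH q)
  refine posDef_gram (form (W t (ht p)) (A t (ht p)) (B t (ht p)) p) L (form_symm _ _ _ _) ?_
  intro v hv
  set X := (ph q).symm v with hX
  have hX0 : X ≠ 0 := fun h => hv ((ph q).symm.map_eq_zero_iff.1 h)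
  have e1 : D1 p (L v) = fderiv ℝ (Sm x.1) z.1 X.1 := D1_chain x z X
  have e2 : D2 p (L v) = fderiv ℝ (Sm x.2) z.2 X.2 := D2_chain x z X
  have e3 : ht p = Sm x.2 z.2 0 := ht_symm x z
  have hm := Sm_mem x.2 z.2
  rw [form_apply, e1, e2, e3]
  have h1 := coord_sq_le (norm_Sm x.2 z.2) (inner_Sm_fderiv x.2 z.2 X.2)
  have h2 := inner_fderiv_Sm x.1 z.1 X.1 X.1
  have h3 := inner_fderiv_Sm x.2 z.2 X.2 X.2
  have c1 : 0 < 16 / (‖z.1‖ ^ 2 + 4) ^ 2 := by positivity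
  have c2 : 0 < 16 / (‖z.2‖ ^ 2 + 4) ^ 2 := by positivity
  have w0 := hW _ hm
  have a0 := hA _ hm
  have b0 := hB _ hm
  set T := fderiv ℝ (Sm x.2) z.2 X.2
  set N2 := ⟪T, T⟫_ℝ
  set N1 := ⟪fderiv ℝ (Sm x.1) z.1 X.1, fderiv ℝ (Sm x.1) z.1 X.1⟫_ℝ
  have n1 : 0 ≤ N1 := real_inner_self_nonneg
  have n2 : 0 ≤ N2 := real_inner_self_nonneg
  have key : ∀ {s : ℝ}, s = min (A t (Sm x.2 z.2 0))
      (A t (Sm x.2 z.2 0) + B t (Sm x.2 z.2 0) * (1 - Sm x.2 z.2 0 ^ 2)) →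
      s * N2 ≤ A t (Sm x.2 z.2 0) * N2 + B t (Sm x.2 z.2 0) * (T 0 * T 0) := by
    rintro s rfl
    rcases le_total 0 (B t (Sm x.2 z.2 0)) with hb | hb
    · have := mul_le_mul_of_nonneg_right (min_le_left (A t (Sm x.2 z.2 0))
        (A t (Sm x.2 z.2 0) + B t (Sm x.2 z.2 0) * (1 - Sm x.2 z.2 0 ^ 2))) n2
      nlinarith [mul_nonneg hb (mul_self_nonneg (T 0))]
    · have := mul_le_mul_of_nonneg_right (min_le_right (A t (Sm x.2 z.2 0))
        (A t (Sm x.2 z.2 0) + B t (Sm x.2 z.2 0) * (1 - Sm x.2 z.2 0 ^ 2))) n2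
      nlinarith [mul_le_mul_of_nonpos_left h1 hb]
  have k1 := key rfl
  have s0 := lt_min a0 b0
  by_cases hx1 : X.1 = 0
  · have hx2 : X.2 ≠ 0 := fun h => hX0 (Prod.ext hx1 h)
    have : 0 < N2 := by
      rw [h3]; exact mul_pos c2 (real_inner_self_pos.2 hx2)
    nlinarith [mul_pos s0 this, mul_nonneg w0.le n1]
  · have : 0 < N1 := by
      rw [h2]; exact mul_pos c1 (real_inner_self_pos.2 hx1)
    nlinarith [mul_nonneg s0.le n2, mul_pos w0 this]

theorem contDiff_ht (v : Sp n) : ContDiff ℝ ∞ fun y : En n => Sm v y 0 :=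
  (EuclideanSpace.proj (0 : Fin (n + 1)) : En (n + 1) →L[ℝ] ℝ).contDiff.comp (contDiff_Sm v)

theorem contDiff_dht (v : Sp n) (X : En n) :
    ContDiff ℝ ∞ fun y : En n => fderiv ℝ (Sm v) y X 0 :=
  (EuclideanSpace.proj (0 : Fin (n + 1)) : En (n + 1) →L[ℝ] ℝ).contDiff.comp
    (((contDiff_Sm v (k := ∞)).fderiv_right (m := ∞) (by simp)).clm_apply contDiff_const)

theorem contDiff_conf : ContDiff ℝ ∞ fun y : En n => 16 / (‖y‖ ^ 2 + 4) ^ 2 :=
  contDiff_const.div ((contDiff_nsq.add contDiff_const).pow 2) fun y => by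
    have := den_pos y; positivity

theorem contDiffOn_fam {W A B : ℝ → ℝ → ℝ} {J : Set ℝ}
    (hW : ContDiffOn ℝ ∞ (fun p : ℝ × ℝ => W p.1 p.2) (J ×ˢ Icc (-1) 1))
    (hA : ContDiffOn ℝ ∞ (fun p : ℝ × ℝ => A p.1 p.2) (J ×ˢ Icc (-1) 1))
    (hB : ContDiffOn ℝ ∞ (fun p : ℝ × ℝ => B p.1 p.2) (J ×ˢ Icc (-1) 1)) (x : MM q)
    (i j : Fin (2 + (q + 1))) :
    ContDiffOn ℝ ∞ (fun p : ℝ × En (2 + (q + 1)) =>
      famCoeff (II q) (ph q) (MM q) (fam q W A B) x p.1 p.2 i j) (J ×ˢ univ) := by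
  simp only [famCoeff_fam]
  have hz : ContDiff ℝ ∞ fun p : ℝ × En (2 + (q + 1)) => (ph q).symm p.2 :=
    (ph q).symm.contDiff.comp contDiff_snd
  have hm : ContDiff ℝ ∞ fun p : ℝ × En (2 + (q + 1)) => (p.1, Sm x.2 ((ph q).symm p.2).2 0) :=
    contDiff_fst.prodMk ((contDiff_ht x.2).comp hz.snd)
  have hmaps : MapsTo (fun p : ℝ × En (2 + (q + 1)) => (p.1, Sm x.2 ((ph q).symm p.2).2 0))
      (J ×ˢ univ) (J ×ˢ Icc (-1) 1) := fun p hp => ⟨hp.1, Sm_mem _ _⟩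
  refine ContDiffOn.add (ContDiffOn.add ?_ ?_) ?_
  · exact (hW.comp hm.contDiffOn hmaps).mul
      ((contDiff_conf.comp hz.fst).mul contDiff_const).contDiffOn
  · exact (hA.comp hm.contDiffOn hmaps).mul
      ((contDiff_conf.comp hz.snd).mul contDiff_const).contDiffOn
  · exact (hB.comp hm.contDiffOn hmaps).mul
      (((contDiff_dht x.2 _).comp hz.snd).mul ((contDiff_dht x.2 _).comp hz.snd)).contDiffOn

/-- **the family is a smooth family of metrics** -/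
theorem smooth_fam {W A B : ℝ → ℝ → ℝ} {T : ℝ}
    (hW : ContDiffOn ℝ ∞ (fun p : ℝ × ℝ => W p.1 p.2) (Ico 0 T ×ˢ Icc (-1) 1))
    (hA : ContDiffOn ℝ ∞ (fun p : ℝ × ℝ => A p.1 p.2) (Ico 0 T ×ˢ Icc (-1) 1))
    (hB : ContDiffOn ℝ ∞ (fun p : ℝ × ℝ => B p.1 p.2) (Ico 0 T ×ˢ Icc (-1) 1))
    (pW : ∀ t ∈ Ico 0 T, ∀ h ∈ Icc (-1 : ℝ) 1, 0 < W t h)
    (pA : ∀ t ∈ Ico 0 T, ∀ h ∈ Icc (-1 : ℝ) 1, 0 < A t h)
    (pB : ∀ t ∈ Ico 0 T, ∀ h ∈ Icc (-1 : ℝ) 1, 0 < A t h + B t h * (1 - h ^ 2)) :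
    IsSmoothMetricFamilyOn (II q) (ph q) (MM q) (fam q W A B) T := by
  intro x
  refine ⟨fun i j => ?_, fun t ht y _ => posDef_fam (pW t ht) (pA t ht) (pB t ht) x y⟩
  rw [famTarget_eq]
  exact contDiffOn_fam hW hA hB x i j

end Crest.Agent.N207.S.Gb
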