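import Crest.Agent.N207.S.Gb3
import Crest.Agent.N207.S.GDefs

/-!
Row 207, S0320, geometry part G2 (helper49), file 4: `RedFlow → ChartFlow → S0320`.
-/

set_option autoImplicit false

open scoped ContDiff Manifold Topology InnerProductSpace
open Set Filter
open Crest.GeometryTopology.CoordMetric Crest.GeometryTopology.MetricFamily
open Crest.Agent.N207.S.Geo

noncomputable section

namespace Crest.Agent.N207.S.Gb

variable {q : ℕ}

theorem ph_fst (y : En (2 + (q + 1))) (i : Fin 2) :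
    ((ph q).symm y).1 i = y (Fin.castAdd (q + 1) i) := by simp

theorem ph_snd (y : En (2 + (q + 1))) (i : Fin (q + 1)) :
    ((ph q).symm y).2 i = y (Fin.natAdd 2 i) := by simp

theorem e1_cast (i : Fin 2) : e1 (q + 1) (Fin.castAdd (q + 1) i) = 1 :=
  if_pos i.isLt

theorem e1_nat (i : Fin (q + 1)) : e1 (q + 1) (Fin.natAdd 2 i) = 0 :=
  if_neg (by rw [Fin.val_natAdd]; omega)

theorem inner_fst (y z : En (2 + (q + 1))) :
    ⟪((ph q).symm y).1, ((ph q).symm z).1⟫_ℝ = ∑ i, e1 (q + 1) i * (y i * z i) := by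
  rw [Fin.sum_univ_add, PiLp.inner_apply]
  simp only [e1_cast, e1_nat, zero_mul, one_mul, Finset.sum_const_zero, add_zero, ph_fst,
    RCLike.inner_apply, conj_trivial]
  exact Finset.sum_congr rfl fun i _ => mul_comm _ _

theorem inner_snd (y z : En (2 + (q + 1))) :
    ⟪((ph q).symm y).2, ((ph q).symm z).2⟫_ℝ = ∑ i, co (e1 (q + 1)) i * (y i * z i) := by
  rw [Fin.sum_univ_add, PiLp.inner_apply]
  simp only [co, e1_cast, e1_nat, sub_self, sub_zero, zero_mul, one_mul, Finset.sum_const_zero,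
    zero_add, ph_snd, RCLike.inner_apply, conj_trivial]
  exact Finset.sum_congr rfl fun i _ => mul_comm _ _

theorem nsq_fst (y : En (2 + (q + 1))) : nsq (e1 (q + 1)) y = ‖((ph q).symm y).1‖ ^ 2 := by
  rw [← real_inner_self_eq_norm_sq, inner_fst, nsq]
  exact Finset.sum_congr rfl fun i _ => by ring

theorem nsq_snd (y : En (2 + (q + 1))) : nsq (co (e1 (q + 1))) y = ‖((ph q).symm y).2‖ ^ 2 := by
  rw [← real_inner_self_eq_norm_sq, inner_snd, nsq]
  exact Finset.sum_congr rfl fun i _ => by ring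

theorem sum_single_mul {m : ℕ} (ε : Fin m → ℝ) (i j : Fin m) :
    ∑ k, ε k * ((EuclideanSpace.single i 1 : En m) k * (EuclideanSpace.single j 1 : En m) k)
      = if i = j then ε i else 0 := by
  rw [Finset.sum_eq_single i]
  · by_cases h : i = j
    · subst h; simp
    · simp [h]
  · intro k _ hk; simp [hk]
  · intro h; exact absurd (Finset.mem_univ _) h

/-- the tangential part of the axis in the product chart -/
def ll (x : MM q) : En (2 + (q + 1)) := ph q (0, lv x.2)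

theorem ll_cast (x : MM q) (i : Fin 2) : ll x (Fin.castAdd (q + 1) i) = 0 := by
  rw [← ph_fst, ll, ContinuousLinearEquiv.symm_apply_apply]; rfl

theorem ll_nat (x : MM q) (i : Fin (q + 1)) : ll x (Fin.natAdd 2 i) = lv x.2 i := by
  rw [← ph_snd, ll, ContinuousLinearEquiv.symm_apply_apply]

theorem sum_ll (x : MM q) (y : En (2 + (q + 1))) :
    ∑ i, ll x i * y i = ⟪lv x.2, ((ph q).symm y).2⟫_ℝ := by
  rw [Fin.sum_univ_add, PiLp.inner_apply]
  simp only [ll_cast, ll_nat, zero_mul, Finset.sum_const_zero, zero_add, ph_snd,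
    RCLike.inner_apply, conj_trivial]
  exact Finset.sum_congr rfl fun i _ => mul_comm _ _

theorem adm (x : MM q) : Adm (q + 1) (ll x) (ht x) := by
  constructor
  · intro i hi
    have : i = Fin.castAdd (q + 1) ⟨i.val, hi⟩ := Fin.ext rfl
    rw [this, ll_cast]
  · have h := sum_ll x (ll x)
    rw [ll, ContinuousLinearEquiv.symm_apply_apply, real_inner_self_eq_norm_sq, norm_lv] at h
    rw [ht, ← h, ll]
    exact Finset.sum_congr rfl fun i _ => by ring

theorem hh_eq (x : MM q) :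
    hh (e1 (q + 1)) (ll x) (ht x) = fun y => Sm x.2 ((ph q).symm y).2 0 := by
  funext y
  rw [hh, sum_ll, nsq_snd, Sm_apply_zero, ht]

theorem pderiv_hh (x : MM q) (y : En (2 + (q + 1))) (i : Fin (2 + (q + 1))) :
    pderiv i (hh (e1 (q + 1)) (ll x) (ht x)) y =
      fderiv ℝ (Sm x.2) ((ph q).symm y).2 ((ph q).symm (EuclideanSpace.single i 1)).2 0 := by
  rw [hh_eq, pderiv]
  have h1 : HasFDerivAt (fun y : En (2 + (q + 1)) => ((ph q).symm y).2)
      ((ContinuousLinearMap.snd ℝ _ _).comp ((ph q).symm : En (2 + (q + 1)) →L[ℝ] EH q)) y :=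
    hasFDerivAt_snd.comp y (ph q).symm.hasFDerivAt
  have h2 := ((contDiff_Sm x.2 (k := 1)).differentiable one_ne_zero
    ((ph q).symm y).2).hasFDerivAt.comp y h1
  have h3 := (EuclideanSpace.proj (0 : Fin (q + 1 + 1)) :
    En (q + 1 + 1) →L[ℝ] ℝ).hasFDerivAt.comp y h2
  exact congrArg (fun L : En (2 + (q + 1)) →L[ℝ] ℝ => L (EuclideanSpace.single i 1)) h3.fderiv

/-- **the coefficients are the model metric** -/
theorem famCoeff_Gm (W A B : ℝ → ℝ → ℝ) (x : MM q) (t : ℝ) :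
    famCoeff (II q) (ph q) (MM q) (fam q W A B) x t =
      Gm (e1 (q + 1)) (ll x) (ht x) (W t) (A t) (B t) := by
  funext y
  ext i j
  rw [famCoeff_fam, inner_fst, inner_snd, sum_single_mul, sum_single_mul, ← pderiv_hh, ← pderiv_hh]
  simp only [Gm, Matrix.of_apply, rnd, nsq_fst, nsq_snd]
  rw [hh_eq]
  split_ifs <;> ring

/-- the statement of S0320 for a given `q` -/
def Goal (q : ℕ) : Prop :=
  ∃ T : ℝ, 0 < T ∧ ∃ g : FormFamily (II q) (MM q),
    IsRicciFlowOn (II q) (ph q) (MM q) g T ∧ HasBoundedScalarCurvature (II q) (ph q) (MM q) g T ∧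
      CurvatureBlowsUpAt (II q) (ph q) (MM q) g T

theorem smH_shift {a T c : ℝ} {F : ℝ → ℝ → ℝ} (h : SmH a T F) (hc : a < c) :
    ContDiffOn ℝ ∞ (fun p : ℝ × ℝ => F (p.1 + c) p.2) (Ico 0 (T - c) ×ˢ Icc (-1) 1) := by
  intro p hp
  have h1 := h (p.1 + c) ⟨by linarith [hp.1.1], by linarith [hp.1.2]⟩ p.2 hp.2
  have h2 : ContDiffAt ℝ ∞ (fun p : ℝ × ℝ => (p.1 + c, p.2)) p := by fun_prop
  exact (ContDiffAt.comp p (g := fun p : ℝ × ℝ => F p.1 p.2) h1 h2).contDiffWithinAt

/-- the south pole -/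
def sp (q : ℕ) : MM q :=
  (⟨EuclideanSpace.single 0 1, by simp⟩, ⟨EuclideanSpace.single 0 (-1), by simp⟩)

theorem ht_sp : ht (sp q) = -1 := by simp [ht, sp]

/-- **G2** -/
theorem g2 {a T : ℝ} {W A B : ℝ → ℝ → ℝ} (R : RedFlow q a T W A B) (C : ChartFlow q a T W A B) :
    Goal q := by
  set c := (a + T) / 2 with hc
  have hac : a < c := by linarith [R.lt]
  have hcT : c < T := by linarith [R.lt]
  have hm : ∀ t ∈ Ico 0 (T - c), t + c ∈ Ioo a T := fun t ht =>
    ⟨by linarith [ht.1], by linarith [ht.2]⟩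
  refine ⟨T - c, by linarith, fam q (fun t => W (t + c)) (fun t => A (t + c)) (fun t => B (t + c)),
    ⟨smooth_fam (smH_shift R.smW hac) (smH_shift R.smA hac) (smH_shift R.smB hac)
      (fun t ht => R.posW _ (hm t ht)) (fun t ht => R.posA _ (hm t ht))
      (fun t ht => R.posS _ (hm t ht)), ?_⟩, ?_, ?_⟩
  · intro x t ht i j
    simp only [famCoeff_Gm, famCentre_eq]
    rw [← C.flow _ _ (adm x) _ (hm t (Ioo_subset_Ico_self ht)) i j]
    exact deriv_comp_add_const
      (fun s => Gm (e1 (q + 1)) (ll x) (Gb.ht x) (W s) (A s) (B s) 0 i j) c t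
  · obtain ⟨K, hK⟩ := C.scal
    refine ⟨K, fun t ht x => ?_⟩
    rw [famCoeff_Gm, famCentre_eq]
    exact hK _ _ (adm x) _ (hm t ht)
  · intro K
    obtain ⟨t₀, h0, h1⟩ := C.blow K
    refine ⟨t₀ - c, by linarith, fun t ht ht' => ⟨sp q, ?_⟩⟩
    rw [famCoeff_Gm, famCentre_eq, ht_sp]
    have h2 := adm (sp q)
    rw [ht_sp] at h2
    exact h1 _ (by linarith) (by linarith) _ h2

/-- **geometry**: from the gauge solution to the statement -/
theorem geo_of (h1 : G1) (h3 : G3) {a T : ℝ} {W X z Y v : ℝ → ℝ → ℝ}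
    (h : GaugeSol q a T W X z Y v) : Goal q := by
  obtain ⟨a', W', A, B, R⟩ := h3 _ _ _ _ _ _ _ _ h
  exact g2 R (h1 _ _ _ _ _ _ R)

open Bundle Crest.GeometryTopology.ChartCurvature Crest Crest.GeometryTopology in
/-- the frozen statement from `Goal` -/
theorem s0320_of (hq : 10 ≤ q) (h : Goal q) :
    ∃ q : ℕ, 10 ≤ q ∧ ∃ T : ℝ, 0 < T ∧
      ∃ g : FormFamily ((𝓡 2).prod (𝓡 (q + 1)))
          (Metric.sphere (0 : EuclideanSpace ℝ (Fin (2 + 1))) 1 × Metric.sphere (0 : EuclideanSpace ℝ (Fin (q + 1 + 1))) 1),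
        IsRicciFlowOn ((𝓡 2).prod (𝓡 (q + 1)))
            (@EuclideanSpace.finAddEquivProd ℝ _ 2 (q + 1)).symm
            (Metric.sphere (0 : EuclideanSpace ℝ (Fin (2 + 1))) 1 × Metric.sphere (0 : EuclideanSpace ℝ (Fin (q + 1 + 1))) 1) g T ∧
          HasBoundedScalarCurvature ((𝓡 2).prod (𝓡 (q + 1)))
            (@EuclideanSpace.finAddEquivProd ℝ _ 2 (q + 1)).symm
            (Metric.sphere (0 : EuclideanSpace ℝ (Fin (2 + 1))) 1 × Metric.sphere (0 : EuclideanSpace ℝ (Fin (q + 1 + 1))) 1) g T ∧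
          CurvatureBlowsUpAt ((𝓡 2).prod (𝓡 (q + 1)))
            (@EuclideanSpace.finAddEquivProd ℝ _ 2 (q + 1)).symm
            (Metric.sphere (0 : EuclideanSpace ℝ (Fin (2 + 1))) 1 × Metric.sphere (0 : EuclideanSpace ℝ (Fin (q + 1 + 1))) 1) g T :=
  ⟨q, hq, h⟩

end Crest.Agent.N207.S.Gb
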