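import Crest.Agent.N207.S.GDefs

/-!
Row 207, S0320, geometry part G3 (helper49), file 2: two-variable calculus and the invariance of
the reduced Ricci flow equations under a time dependent change of the orbit coordinate.
-/

set_option autoImplicit false

open scoped ContDiff Topology
open Set Filter

noncomputable section

namespace Crest.Agent.N207.S.Gc

open Geo

theorem ev_diff {E : Type} [NormedAddCommGroup E] [NormedSpace ℝ E] {f : E → ℝ} {x : E}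
    (h : ContDiffAt ℝ ∞ f x) : ∀ᶠ y in 𝓝 x, DifferentiableAt ℝ f y :=
  ((h.of_le (m := 1) (by exact_mod_cast le_top)).eventually (by simp)).mono
    fun _ hy => hy.differentiableAt one_ne_zero

theorem cd_fd {E : Type} [NormedAddCommGroup E] [NormedSpace ℝ E] {f : E → ℝ} {x : E}
    (h : ContDiffAt ℝ ∞ f x) : ContDiffAt ℝ ∞ (fderiv ℝ f) x :=
  h.fderiv_right (m := ∞) (by simp)

theorem cd_deriv {f : ℝ → ℝ} {x : ℝ} (h : ContDiffAt ℝ ∞ f x) : ContDiffAt ℝ ∞ (deriv f) x :=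
  (cd_fd h).clm_apply (g := fun _ => (1 : ℝ)) contDiffAt_const

theorem hd_of {f : ℝ → ℝ} {x : ℝ} (h : ContDiffAt ℝ ∞ f x) : HasDerivAt f (deriv f x) x :=
  (h.differentiableAt (by simp)).hasDerivAt

theorem hd_comp {f φ : ℝ → ℝ} {f' φ' x : ℝ} (hf : HasDerivAt f f' (φ x)) (hφ : HasDerivAt φ φ' x) :
    HasDerivAt (fun y => f (φ y)) (f' * φ') x := hf.comp x hφ

/-- uncurried function -/
abbrev un (F : ℝ → ℝ → ℝ) : ℝ × ℝ → ℝ := fun p => F p.1 p.2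

theorem hd_x {F : ℝ → ℝ → ℝ} {t x : ℝ} (h : DifferentiableAt ℝ (un F) (t, x)) :
    HasDerivAt (F t) (fderiv ℝ (un F) (t, x) (0, 1)) x :=
  h.hasFDerivAt.comp_hasDerivAt (f := fun y : ℝ => ((t, y) : ℝ × ℝ)) x
    ((hasDerivAt_const x t).prodMk (hasDerivAt_id x))

theorem hd_t {F : ℝ → ℝ → ℝ} {t x : ℝ} (h : DifferentiableAt ℝ (un F) (t, x)) :
    HasDerivAt (fun s => F s x) (fderiv ℝ (un F) (t, x) (1, 0)) t :=
  h.hasFDerivAt.comp_hasDerivAt (f := fun s : ℝ => ((s, x) : ℝ × ℝ)) t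
    ((hasDerivAt_id t).prodMk (hasDerivAt_const t x))

theorem cd_x {F : ℝ → ℝ → ℝ} {t x : ℝ} (h : ContDiffAt ℝ ∞ (un F) (t, x)) :
    ContDiffAt ℝ ∞ (F t) x :=
  h.comp (f := fun y : ℝ => ((t, y) : ℝ × ℝ)) x (contDiffAt_const.prodMk contDiffAt_id)

theorem cd_t {F : ℝ → ℝ → ℝ} {t x : ℝ} (h : ContDiffAt ℝ ∞ (un F) (t, x)) :
    ContDiffAt ℝ ∞ (fun s => F s x) t :=
  h.comp (f := fun s : ℝ => ((s, x) : ℝ × ℝ)) t (contDiffAt_id.prodMk contDiffAt_const)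

theorem tend_x (t x : ℝ) : Tendsto (fun y : ℝ => ((t, y) : ℝ × ℝ)) (𝓝 x) (𝓝 (t, x)) :=
  (continuous_const.prodMk continuous_id).tendsto x

theorem tend_t (t x : ℝ) : Tendsto (fun s : ℝ => ((s, x) : ℝ × ℝ)) (𝓝 t) (𝓝 (t, x)) :=
  (continuous_id.prodMk continuous_const).tendsto t

/-- the space derivative of a smooth function is smooth -/
theorem cd_dx {F : ℝ → ℝ → ℝ} {p : ℝ × ℝ} (h : ContDiffAt ℝ ∞ (un F) p) :
    ContDiffAt ℝ ∞ (un fun s y => deriv (F s) y) p := by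
  refine ((cd_fd h).clm_apply (g := fun _ => ((0, 1) : ℝ × ℝ))
    contDiffAt_const).congr_of_eventuallyEq ?_
  filter_upwards [ev_diff h] with r hr using (hd_x (t := r.1) (x := r.2) hr).deriv

/-- chain rule along a curve -/
theorem chain {F : ℝ → ℝ → ℝ} {g : ℝ → ℝ} {g' t : ℝ} (h : ContDiffAt ℝ ∞ (un F) (t, g t))
    (hg : HasDerivAt g g' t) :
    HasDerivAt (fun s => F s (g s)) (deriv (fun s => F s (g t)) t + g' * deriv (F t) (g t)) t := by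
  have hd := h.differentiableAt (by simp)
  have h1 := hd.hasFDerivAt.comp_hasDerivAt (f := fun s : ℝ => ((s, g s) : ℝ × ℝ)) t
    ((hasDerivAt_id t).prodMk hg)
  rw [(hd_t hd).deriv, (hd_x hd).deriv]
  refine HasDerivAt.congr_deriv h1 ?_
  rw [show ((1, g') : ℝ × ℝ) = (1, 0) + g' • (0, 1) by simp, map_add, map_smul, smul_eq_mul]

/-- symmetry of the mixed derivative -/
theorem mixed {F : ℝ → ℝ → ℝ} {t x : ℝ} (h : ContDiffAt ℝ ∞ (un F) (t, x)) :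
    HasDerivAt (fun s => deriv (F s) x) (deriv (fun y => deriv (fun s => F s y) t) x) t := by
  have hs : IsSymmSndFDerivAt ℝ (un F) (t, x) :=
    h.isSymmSndFDerivAt (by rw [minSmoothness_of_isRCLikeNormedField]; decide)
  have hD := ((cd_fd h).differentiableAt (by simp)).hasFDerivAt
  have h1 := (hD.comp_hasDerivAt (f := fun s : ℝ => ((s, x) : ℝ × ℝ)) t
    ((hasDerivAt_id t).prodMk (hasDerivAt_const t x))).clm_apply
    (hasDerivAt_const t ((0, 1) : ℝ × ℝ))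
  have h2 := (hD.comp_hasDerivAt (f := fun y : ℝ => ((t, y) : ℝ × ℝ)) x
    ((hasDerivAt_const x t).prodMk (hasDerivAt_id x))).clm_apply
    (hasDerivAt_const x ((1, 0) : ℝ × ℝ))
  have e1 : (fun s => deriv (F s) x) =ᶠ[𝓝 t] fun s => fderiv ℝ (un F) (s, x) (0, 1) := by
    filter_upwards [(tend_t t x).eventually (ev_diff h)] with s hs using (hd_x hs).deriv
  have e2 : (fun y => deriv (fun s => F s y) t) =ᶠ[𝓝 x] fun y => fderiv ℝ (un F) (t, y) (1, 0) := by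
    filter_upwards [(tend_x t x).eventually (ev_diff h)] with y hy using (hd_t hy).deriv
  rw [(h2.congr_of_eventuallyEq e2).deriv]
  refine HasDerivAt.congr_deriv (h1.congr_of_eventuallyEq e1) ?_
  simp only [map_zero, add_zero]
  exact hs.eq _ _

/-- the linearised equation of a flow -/
theorem lin_ode {V φ : ℝ → ℝ → ℝ} {t h : ℝ} (hV : ContDiffAt ℝ ∞ (un V) (t, φ t h))
    (hφ : ContDiffAt ℝ ∞ (un φ) (t, h))
    (ho : ∀ᶠ p in 𝓝 (t, h), HasDerivAt (fun s => φ s p.2) (V p.1 (φ p.1 p.2)) p.1) :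
    HasDerivAt (fun s => deriv (φ s) h) (deriv (V t) (φ t h) * deriv (φ t) h) t := by
  have e : (fun y => deriv (fun s => φ s y) t) =ᶠ[𝓝 h] fun y => V t (φ t y) := by
    filter_upwards [(tend_x t h).eventually ho] with y hy using hy.deriv
  have h1 := mixed hφ
  rwa [e.deriv_eq, (hd_comp (hd_of (cd_x hV)) (hd_of (cd_x hφ))).deriv] at h1

theorem d_comp {f g φ : ℝ → ℝ} {h : ℝ} (hf : ContDiffAt ℝ ∞ f (φ h)) (hφ : ContDiffAt ℝ ∞ φ h)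
    (e : g =ᶠ[𝓝 h] fun y => f (φ y)) :
    g h = f (φ h) ∧ deriv g h = deriv f (φ h) * deriv φ h ∧ deriv (deriv g) h =
      deriv (deriv f) (φ h) * deriv φ h ^ 2 + deriv f (φ h) * deriv (deriv φ) h := by
  have e1 : deriv g =ᶠ[𝓝 h] fun y => deriv f (φ y) * deriv φ y := by
    filter_upwards [e.eventuallyEq_nhds, ev_diff hφ,
      hφ.continuousAt.tendsto.eventually (ev_diff hf)] with y h1 h2 h3
    rw [h1.deriv_eq]
    exact (h3.hasDerivAt.comp y h2.hasDerivAt).deriv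
  refine ⟨e.eq_of_nhds, e1.eq_of_nhds, ?_⟩
  rw [e1.deriv_eq,
    ((hd_comp (hd_of (cd_deriv hf)) (hd_of hφ)).fun_mul (hd_of (cd_deriv hφ))).deriv]
  ring

theorem d_compZ {f g φ : ℝ → ℝ} {h : ℝ} (hf : ContDiffAt ℝ ∞ f (φ h)) (hφ : ContDiffAt ℝ ∞ φ h)
    (h1 : deriv φ h ≠ 0) (e : g =ᶠ[𝓝 h] fun y => f (φ y) / deriv φ y ^ 2) :
    g h = f (φ h) / deriv φ h ^ 2 ∧ deriv g h =
      deriv f (φ h) / deriv φ h - 2 * f (φ h) * deriv (deriv φ) h / deriv φ h ^ 3 := by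
  refine ⟨e.eq_of_nhds, ?_⟩
  rw [e.deriv_eq, ((hd_comp (hd_of hf) (hd_of hφ)).fun_div ((hd_of (cd_deriv hφ)).fun_pow 2)
    (pow_ne_zero 2 h1)).deriv]
  field_simp
  ring

theorem kS_inv (F F1 F2 Z Z1 e : ℝ) {c : ℝ} (hc : c ≠ 0) :
    kS F (F1 * c) (F2 * c ^ 2 + F1 * e) (Z / c ^ 2) (Z1 / c - 2 * Z * e / c ^ 3) =
      kS F F1 F2 Z Z1 := by
  have h1 : Z / c ^ 2 * (F2 * c ^ 2 + F1 * e) + (Z1 / c - 2 * Z * e / c ^ 3) * (F1 * c) / 2 =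
      Z * F2 + Z1 * F1 / 2 := by field_simp; ring
  have h2 : Z / c ^ 2 * (F1 * c) ^ 2 = Z * F1 ^ 2 := by field_simp
  rw [kS, kS, h1, h2]

theorem kT_inv (F F1 Z : ℝ) {c : ℝ} (hc : c ≠ 0) : kT F (F1 * c) (Z / c ^ 2) = kT F F1 Z := by
  have h2 : Z / c ^ 2 * (F1 * c) ^ 2 = Z * F1 ^ 2 := by field_simp
  rw [kT, kT, h2]

theorem kX_inv (W W1 P P1 Z : ℝ) {c : ℝ} (hc : c ≠ 0) :
    kX W (W1 * c) P (P1 * c) (Z / c ^ 2) = kX W W1 P P1 Z := by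
  have h2 : Z / c ^ 2 * (W1 * c) * (P1 * c) = Z * W1 * P1 := by field_simp
  rw [kX, kX, h2]

/-- the Ricci eigenvalues do not depend on the orbit coordinate -/
theorem f_inv (q : ℕ) {w p z w' p' z' φ : ℝ → ℝ} {h : ℝ} (hw : ContDiffAt ℝ ∞ w (φ h))
    (hp : ContDiffAt ℝ ∞ p (φ h)) (hz : ContDiffAt ℝ ∞ z (φ h)) (hφ : ContDiffAt ℝ ∞ φ h)
    (h1 : deriv φ h ≠ 0) (ew : w' =ᶠ[𝓝 h] fun y => w (φ y)) (ep : p' =ᶠ[𝓝 h] fun y => p (φ y))
    (ez : z' =ᶠ[𝓝 h] fun y => z (φ y) / deriv φ y ^ 2) :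
    fa q w' p' z' h = fa q w p z (φ h) ∧ fb q w' p' z' h = fb q w p z (φ h) ∧
      fc q w' p' z' h = fc q w p z (φ h) := by
  obtain ⟨a0, a1, a2⟩ := d_comp hw hφ ew
  obtain ⟨b0, b1, b2⟩ := d_comp hp hφ ep
  obtain ⟨c0, c1⟩ := d_compZ hz hφ h1 ez
  simp only [fa, fb, fc, ra, rb, rc, a0, a1, a2, b0, b1, b2, c0, c1, kS_inv _ _ _ _ _ _ h1,
    kT_inv _ _ _ h1, kX_inv _ _ _ _ _ h1, and_self]

/-- **passage to a material coordinate** -/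
theorem reparam (q : ℕ) {W P Z V W' P' Z' φ : ℝ → ℝ → ℝ} {t h : ℝ}
    (hW : ContDiffAt ℝ ∞ (un W) (t, φ t h)) (hP : ContDiffAt ℝ ∞ (un P) (t, φ t h))
    (hZ : ContDiffAt ℝ ∞ (un Z) (t, φ t h)) (hV : ContDiffAt ℝ ∞ (un V) (t, φ t h))
    (hφ : ContDiffAt ℝ ∞ (un φ) (t, h)) (h1 : deriv (φ t) h ≠ 0)
    (ho : ∀ᶠ p in 𝓝 (t, h), HasDerivAt (fun s => φ s p.2) (V p.1 (φ p.1 p.2)) p.1)
    (eW : ∀ᶠ p in 𝓝 (t, h), W' p.1 p.2 = W p.1 (φ p.1 p.2))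
    (eP : ∀ᶠ p in 𝓝 (t, h), P' p.1 p.2 = P p.1 (φ p.1 p.2))
    (eZ : ∀ᶠ p in 𝓝 (t, h), Z' p.1 p.2 = Z p.1 (φ p.1 p.2) / deriv (φ p.1) p.2 ^ 2) :
    fR q (W' t) (P' t) (Z' t) h = fR q (W t) (P t) (Z t) (φ t h) ∧
      (Eqs q W P Z V t (φ t h) → Eqs q W' P' Z' (fun _ _ => 0) t h) := by
  obtain ⟨ia, ib, ic⟩ := f_inv q (w' := W' t) (p' := P' t) (z' := Z' t) (cd_x hW) (cd_x hP)
    (cd_x hZ) (cd_x hφ) h1 ((tend_x t h).eventually eW) ((tend_x t h).eventually eP)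
    ((tend_x t h).eventually eZ)
  refine ⟨by rw [fR, fR, ia, ib, ic], fun E => ?_⟩
  have ho' : HasDerivAt (fun s => φ s h) (V t (φ t h)) t := ho.self_of_nhds
  have tW : (fun s => W' s h) =ᶠ[𝓝 t] fun s => W s (φ s h) := (tend_t t h).eventually eW
  have tP : (fun s => P' s h) =ᶠ[𝓝 t] fun s => P s (φ s h) := (tend_t t h).eventually eP
  have tZ : (fun s => Z' s h) =ᶠ[𝓝 t] fun s => Z s (φ s h) / deriv (φ s) h ^ 2 :=
    (tend_t t h).eventually eZ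
  have pW : W' t h = W t (φ t h) := tW.eq_of_nhds
  have pP : P' t h = P t (φ t h) := tP.eq_of_nhds
  have pZ : Z' t h = Z t (φ t h) / deriv (φ t) h ^ 2 := tZ.eq_of_nhds
  refine ⟨?_, ?_, ?_⟩
  · rw [tW.deriv_eq, (chain (g := fun s => φ s h) hW ho').deriv, ia, pW, ← E.eW]; ring
  · rw [tP.deriv_eq, (chain (g := fun s => φ s h) hP ho').deriv, ib, pP, ← E.eP]; ring
  · rw [tZ.deriv_eq, ((chain (g := fun s => φ s h) hZ ho').fun_div
      ((lin_ode hV hφ ho).fun_pow 2) (pow_ne_zero 2 h1)).deriv, ic, pZ, deriv_const,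
      ← mul_div_assoc (2 * fc q _ _ _ _), ← E.eZ]
    field_simp
    ring

end Crest.Agent.N207.S.Gc
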