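import Crest.Agent.N207.S.Gc2
import Crest.Agent.Lib.ODEFlow

/-!
Row 207, S0320, geometry part G3 (helper49), file 3: the scalar ODE `ρ_t = G(t,h,ρ)`, `ρ(c,h) = 0`,
with a parameter `h`, and non-degeneracy of a one-dimensional flow.
-/

set_option autoImplicit false

open scoped ContDiff Topology
open Set Filter

noncomputable section

namespace Crest.Agent.N207.S.Gc

open Crest.Agent.Lib.ODEFlow

theorem mvt_abs {f f' : ℝ → ℝ} {s C : ℝ} (hf : ∀ r ∈ uIcc 0 s, HasDerivAt f (f' r) r)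
    (hb : ∀ r ∈ uIcc 0 s, |f' r| ≤ C) : |f s - f 0| ≤ C * |s| := by
  have := (convex_uIcc (0 : ℝ) s).norm_image_sub_le_of_norm_hasDerivWithin_le
    (fun r hr => (hf r hr).hasDerivWithinAt) hb left_mem_uIcc right_mem_uIcc
  simpa using this

/-- **parametrised scalar ODE** -/
theorem ex_ode {G : ℝ × ℝ × ℝ → ℝ} {U : Set (ℝ × ℝ × ℝ)} (hU : IsOpen U)
    (hG : ContDiffOn ℝ ∞ G U) {c T : ℝ} {H : Set ℝ}
    (hm : ∀ t ∈ Ico c T, ∀ h ∈ H, ∀ r, (t, h, r) ∈ U)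
    (hb : ∀ t < T, ∃ M, ∀ s ∈ Icc c t, ∀ h ∈ H, ∀ r, |G (s, h, r)| ≤ M) :
    ∃ ρ : ℝ → ℝ → ℝ, (∀ h, (c, h, (0 : ℝ)) ∈ U → ρ c h = 0) ∧ ∀ t ∈ Ico c T, ∀ h ∈ H,
      ContDiffAt ℝ ∞ (un ρ) (t, h) ∧ ∀ᶠ p in 𝓝 (t, h), (p.1, p.2, ρ p.1 p.2) ∈ U ∧
        HasDerivAt (fun s => ρ s p.2) (G (p.1, p.2, ρ p.1 p.2)) p.1 := by
  set vf : ℝ × ℝ × ℝ → ℝ × ℝ × ℝ := fun y => (1, 0, G y) with hvf
  have hv : ContDiffOn ℝ ∞ vf U := contDiffOn_const.prodMk (contDiffOn_const.prodMk hG)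
  have hv1 : ContDiffOn ℝ 1 vf U := hv.of_le (by exact_mod_cast le_top)
  have hd : ∀ {x : ℝ × ℝ × ℝ} {s : ℝ}, (x, s) ∈ dom vf U →
      HasDerivAt (fun r => (flow vf U (x, r)).1) 1 s ∧
      HasDerivAt (fun r => (flow vf U (x, r)).2.1) 0 s ∧
      HasDerivAt (fun r => (flow vf U (x, r)).2.2) (G (flow vf U (x, s))) s := fun h =>
    ⟨(hasDerivAt_flow hU hv1 h).fst, (hasDerivAt_flow hU hv1 h).snd.fst,
      (hasDerivAt_flow hU hv1 h).snd.snd⟩
  have hc : ∀ {x : ℝ × ℝ × ℝ} {s : ℝ}, (x, s) ∈ dom vf U →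
      flow vf U (x, s) = (x.1 + s, x.2.1, (flow vf U (x, s)).2.2) := by
    intro x s h
    have h0 := flow_zero hU hv1 (mem_of_mem_dom h)
    have h1 := mvt_abs (f := fun r => (flow vf U (x, r)).1 - r) (f' := fun _ => 0) (C := 0)
      (fun r hr => by simpa using (hd (mem_dom_of_uIcc h hr)).1.fun_sub (hasDerivAt_id' r))
      (fun _ _ => by simp)
    have h2 := mvt_abs (f := fun r => (flow vf U (x, r)).2.1) (f' := fun _ => 0) (C := 0)
      (fun r hr => (hd (mem_dom_of_uIcc h hr)).2.1) (fun _ _ => by simp)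
    simp only [zero_mul, abs_nonpos_iff, h0] at h1 h2
    refine Prod.ext ?_ (Prod.ext ?_ rfl)
    · show _ = x.1 + s
      linarith
    · show _ = x.2.1
      linarith
  have hex : ∀ t ∈ Ico c T, ∀ h ∈ H, (((c, h, (0 : ℝ)), t - c) : (ℝ × ℝ × ℝ) × ℝ) ∈ dom vf U := by
    intro t ht h hh
    obtain ⟨M, hM⟩ := hb t ht.2
    have hM0 : 0 ≤ M := (abs_nonneg _).trans (hM c ⟨le_rfl, ht.1⟩ h hh 0)
    have hcU : ((c, h, (0 : ℝ)) : ℝ × ℝ × ℝ) ∈ U := hm c ⟨le_rfl, ht.1.trans_lt ht.2⟩ h hh 0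
    refine mem_dom_of_compact hU hv1 (K := Icc c t ×ˢ {h} ×ˢ Icc (-(M * (t - c))) (M * (t - c)))
      (isCompact_Icc.prod (isCompact_singleton.prod isCompact_Icc)) ?_ hcU ?_ (sub_nonneg.2 ht.1)
    · rintro ⟨s, y, r⟩ ⟨h1, h2, -⟩
      obtain rfl : y = h := h2
      exact hm s ⟨h1.1, h1.2.trans_lt ht.2⟩ y hh r
    · intro s hs hd'
      have h1 := mvt_abs (f := fun r => (flow vf U ((c, h, (0 : ℝ)), r)).2.2) (C := M)
        (fun r hr => (hd (mem_dom_of_uIcc hd' hr)).2.2) (fun r hr => by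
          rw [hc (mem_dom_of_uIcc hd' hr)]
          rw [uIcc_of_le hs.1] at hr
          exact hM _ ⟨by linarith [hr.1], by linarith [hr.2, hs.2]⟩ h hh _)
      simp only [flow_zero hU hv1 hcU, sub_zero, abs_of_nonneg hs.1] at h1
      have h2 : M * s ≤ M * (t - c) := mul_le_mul_of_nonneg_left hs.2.le hM0
      rw [hc hd']
      exact ⟨⟨by linarith [hs.1], by linarith [hs.2]⟩, rfl, abs_le.1 (h1.trans h2)⟩
  have hι : ContDiff ℝ ∞ fun p : ℝ × ℝ => (((c, p.2, (0 : ℝ)), p.1 - c) : (ℝ × ℝ × ℝ) × ℝ) := by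
    fun_prop
  refine ⟨fun t h => (flow vf U ((c, h, 0), t - c)).2.2, fun h hh => ?_, fun t ht h hh => ⟨?_, ?_⟩⟩
  · simp only [sub_self, flow_zero hU hv1 hh]
  · have h1 := (contDiffOn_flow (n := ⊤) le_top hU hv).contDiffAt
      ((isOpen_dom hU hv1).mem_nhds (hex t ht h hh))
    exact (h1.comp (t, h) hι.contDiffAt).snd.snd
  · filter_upwards [(hι.continuous.tendsto (t, h)).eventually
      ((isOpen_dom hU hv1).mem_nhds (hex t ht h hh))] with p hp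
    have h1 := hc hp
    simp only [add_sub_cancel] at h1
    refine ⟨h1 ▸ flow_mem hU hv1 hp, ?_⟩
    have h2 := hd_comp (φ := fun s => s - c) (x := p.1) (hd hp).2.2
      ((hasDerivAt_id' p.1).sub_const c)
    rw [mul_one, h1] at h2
    exact h2

/-- a solution of a linear ODE with continuous coefficient does not vanish -/
theorem ne_zero_of_lin {η κ : ℝ → ℝ} {c t : ℝ} (hct : c ≤ t) (hκ : ContinuousOn κ (Icc c t))
    (hη : ∀ s ∈ Icc c t, HasDerivAt η (κ s * η s) s) (h0 : η c ≠ 0) : η t ≠ 0 := by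
  obtain ⟨M, hM⟩ := isCompact_Icc.exists_bound_of_continuousOn hκ
  have hd : ∀ s ∈ Icc c t, HasDerivAt (fun s => η s ^ 2 * Real.exp (2 * M * s))
      (2 * (κ s + M) * η s ^ 2 * Real.exp (2 * M * s)) s := by
    intro s hs
    refine HasDerivAt.congr_deriv (((hη s hs).fun_pow 2).fun_mul
      (((hasDerivAt_id' s).const_mul (2 * M)).exp)) ?_
    norm_num
    ring
  have hmono : MonotoneOn (fun s => η s ^ 2 * Real.exp (2 * M * s)) (Icc c t) := by
    refine monotoneOn_of_deriv_nonneg (convex_Icc c t)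
      (fun s hs => (hd s hs).continuousAt.continuousWithinAt)
      (fun s hs => (hd s (interior_subset hs)).differentiableAt.differentiableWithinAt)
      fun s hs => ?_
    rw [(hd s (interior_subset hs)).deriv]
    have h1 := (abs_le.1 (hM s (interior_subset hs))).1
    have h2 : 0 ≤ κ s + M := by linarith
    positivity
  intro h
  have h1 := hmono ⟨le_rfl, hct⟩ ⟨hct, le_rfl⟩ hct
  have h2 : 0 < η c ^ 2 * Real.exp (2 * M * c) := by positivity
  simp only [h] at h1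
  linarith [h1, h2, show (0 : ℝ) ^ 2 * Real.exp (2 * M * t) = 0 by simp]

/-- the flow of a one-dimensional vector field is a local diffeomorphism -/
theorem flow_ne {V φ : ℝ → ℝ → ℝ} {c t h : ℝ} (hct : c ≤ t)
    (hV : ∀ s ∈ Icc c t, ContDiffAt ℝ ∞ (un V) (s, φ s h))
    (hφ : ∀ s ∈ Icc c t, ContDiffAt ℝ ∞ (un φ) (s, h))
    (ho : ∀ s ∈ Icc c t, ∀ᶠ p in 𝓝 (s, h),
      HasDerivAt (fun s => φ s p.2) (V p.1 (φ p.1 p.2)) p.1)
    (h0 : deriv (φ c) h ≠ 0) : deriv (φ t) h ≠ 0 := by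
  refine ne_zero_of_lin (η := fun s => deriv (φ s) h) (κ := fun s => deriv (V s) (φ s h)) hct
    (fun s hs => ?_) (fun s hs => lin_ode (hV s hs) (hφ s hs) (ho s hs)) h0
  exact ((cd_dx (hV s hs)).continuousAt.comp (f := fun s => ((s, φ s h) : ℝ × ℝ))
    (continuousAt_id.prodMk (cd_t (hφ s hs)).continuousAt)).continuousWithinAt

end Crest.Agent.N207.S.Gc
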