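import Crest.Agent.N207.S.Gc1
import Crest.Agent.N207.S.Gc3

/-!
Row 207, S0320, geometry part G3 (helper49), file 4: `GaugeSol → RedFlow`.
-/

set_option autoImplicit false

open scoped ContDiff Topology
open Set Filter

noncomputable section

namespace Crest.Agent.N207.S.Gc

open Geo

/-- `D = 1 - ξ0 + ξ0 e^ρ` -/
def Dn (h r : ℝ) : ℝ := (1 - h) / 2 + (1 + h) / 2 * Real.exp r

/-- `ξ = ξ0 e^ρ / D` -/
def xi (h r : ℝ) : ℝ := (1 + h) / 2 * Real.exp r / Dn h r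

/-- `E = e^ρ / D²` -/
def Ef (h r : ℝ) : ℝ := Real.exp r / Dn h r ^ 2

theorem Dn_pos {h : ℝ} (hh : h ∈ Icc (-1 : ℝ) 1) (r : ℝ) : 0 < Dn h r := by
  have := Real.exp_pos r
  rcases hh.2.eq_or_lt with rfl | h1
  · simp only [Dn]; linarith
  · have h2 : 0 ≤ (1 + h) / 2 * Real.exp r := mul_nonneg (by linarith [hh.1]) this.le
    simp only [Dn]; linarith

theorem Ef_pos {h r : ℝ} (hD : 0 < Dn h r) : 0 < Ef h r := by
  have := Real.exp_pos r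
  unfold Ef; positivity

theorem one_sub_xi {h r : ℝ} (hD : 0 < Dn h r) : 1 - xi h r = (1 - h) / 2 / Dn h r := by
  rw [xi, eq_div_iff hD.ne', sub_mul, div_mul_cancel₀ _ hD.ne', Dn]; ring

theorem xi_mul {h r : ℝ} (hD : 0 < Dn h r) : xi h r * (1 - xi h r) = (1 - h ^ 2) / 4 * Ef h r := by
  rw [one_sub_xi hD, xi, Ef]; field_simp; ring

theorem xi_Icc {h : ℝ} (hh : h ∈ Icc (-1 : ℝ) 1) (r : ℝ) : xi h r ∈ Icc (0 : ℝ) 1 := by
  have hD := Dn_pos hh r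
  have h1 : 0 ≤ 1 + h := by linarith [hh.1]
  have h2 : 0 ≤ 1 - h := by linarith [hh.2]
  refine ⟨by unfold xi; positivity, sub_nonneg.1 ?_⟩
  rw [one_sub_xi hD]; positivity

theorem xi_Ioo {h : ℝ} (hh : h ∈ Ioo (-1 : ℝ) 1) (r : ℝ) : xi h r ∈ Ioo (0 : ℝ) 1 := by
  have hD := Dn_pos (Ioo_subset_Icc_self hh) r
  have h1 : 0 < 1 + h := by linarith [hh.1]
  have h2 : 0 < 1 - h := by linarith [hh.2]
  refine ⟨by unfold xi; positivity, sub_pos.1 ?_⟩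
  rw [one_sub_xi hD]; positivity

theorem hd_xi {η ρ : ℝ → ℝ} {η' ρ' s : ℝ} (hη : HasDerivAt η η' s) (hρ : HasDerivAt ρ ρ' s)
    (hD : 0 < Dn (η s) (ρ s)) : HasDerivAt (fun y => xi (η y) (ρ y))
      (Ef (η s) (ρ s) * (η' + (1 - η s ^ 2) / 2 * ρ') / 2) s := by
  have h1 := ((hη.const_add 1).div_const 2).fun_mul hρ.exp
  have h2 := ((hη.const_sub 1).div_const 2).fun_add h1
  refine HasDerivAt.congr_deriv (h1.fun_div h2 hD.ne') ?_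
  rw [Ef, Dn, mul_div_assoc (Real.exp (ρ s) / _), div_mul_eq_mul_div (Real.exp (ρ s))]
  congr 1
  ring

theorem cd_Dn : ContDiff ℝ ∞ (un Dn) := by
  show ContDiff ℝ ∞ fun p : ℝ × ℝ => (1 - p.1) / 2 + (1 + p.1) / 2 * Real.exp p.2
  fun_prop

theorem cd_xi {p : ℝ × ℝ} (hD : 0 < Dn p.1 p.2) : ContDiffAt ℝ ∞ (un xi) p :=
  ContDiffAt.div (f := fun p : ℝ × ℝ => (1 + p.1) / 2 * Real.exp p.2) (by fun_prop)
    cd_Dn.contDiffAt hD.ne'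

theorem cd_Ef {p : ℝ × ℝ} (hD : 0 < Dn p.1 p.2) : ContDiffAt ℝ ∞ (un Ef) p :=
  ContDiffAt.div (f := fun p : ℝ × ℝ => Real.exp p.2) (by fun_prop)
    (cd_Dn.contDiffAt.pow 2) (pow_ne_zero 2 hD.ne')

theorem SmC_at {a T : ℝ} {F : ℝ → ℝ → ℝ} (h : SmC a T F) {t x : ℝ} (ht : t ∈ Ioo a T)
    (hx : x ∈ Ioo (0 : ℝ) 1) : ContDiffAt ℝ ∞ (un F) (t, x) :=
  ContDiffOn.contDiffAt h (prod_mem_nhds (isOpen_Ioo.mem_nhds ht) (Icc_mem_nhds hx.1 hx.2))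

theorem bub_at (c : ℝ) {F : ℝ → ℝ → ℝ} {p : ℝ × ℝ} (h : ContDiffAt ℝ ∞ (un F) p) :
    ContDiffAt ℝ ∞ (un (bub c F)) p :=
  ContDiffAt.mul (f := fun p : ℝ × ℝ => c * (p.2 * (1 - p.2))) (by fun_prop) h

/-- the logit displacement `ρ` -/
theorem ex_rho {a T c : ℝ} {v : ℝ → ℝ → ℝ} (hv : SmC a T v) (hc : a < c) :
    ∃ ρ : ℝ → ℝ → ℝ, (∀ h ∈ Icc (-1 : ℝ) 1, ρ c h = 0) ∧
      (∀ t ∈ Ico c T, ∀ h ∈ Icc (-1 : ℝ) 1, ContDiffAt ℝ ∞ (un ρ) (t, h)) ∧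
      ∀ t ∈ Ico c T, ∀ h ∈ Ioo (-1 : ℝ) 1, ∀ᶠ p in 𝓝 (t, h),
        HasDerivAt (fun s => xi p.2 (ρ s p.2)) (bub 1 v p.1 (xi p.2 (ρ p.1 p.2))) p.1 := by
  obtain ⟨g, hg, eg⟩ := ext_Ioo hv
  have hU : IsOpen {y : ℝ × ℝ × ℝ | y.1 ∈ Ioo a T ∧ 0 < Dn y.2.1 y.2.2} :=
    (isOpen_Ioo.preimage continuous_fst).inter
      (isOpen_lt continuous_const (cd_Dn.continuous.comp continuous_snd))
  obtain ⟨ρ, h0, hρ⟩ := ex_ode (G := fun y => g (y.1, xi y.2.1 y.2.2)) hU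
    (fun y hy => ((hg (y.1, xi y.2.1 y.2.2) hy.1).comp y
      (contDiffAt_fst.prodMk ((cd_xi hy.2).comp y contDiffAt_snd))).contDiffWithinAt)
    (c := c) (T := T) (H := Icc (-1) 1)
    (fun t ht h hh r => ⟨⟨hc.trans_le ht.1, ht.2⟩, Dn_pos hh r⟩) (fun t ht => by
      obtain ⟨M, hM⟩ := (isCompact_Icc.prod isCompact_Icc).exists_bound_of_continuousOn
        (s := Icc c t ×ˢ Icc (0 : ℝ) 1) (f := g) fun p hp =>
          (hg p ⟨hc.trans_le hp.1.1, hp.1.2.trans_lt ht⟩).continuousAt.continuousWithinAt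
      exact ⟨M, fun s hs h hh r => hM (s, xi h r) ⟨hs, xi_Icc hh r⟩⟩)
  rcases le_or_gt T c with hT | hT
  · exact ⟨fun _ _ => 0, fun _ _ => rfl, fun t ht => absurd (ht.1.trans_lt ht.2) hT.not_gt,
      fun t ht => absurd (ht.1.trans_lt ht.2) hT.not_gt⟩
  refine ⟨ρ, fun h hh => h0 h ⟨⟨hc, hT⟩, Dn_pos hh 0⟩, fun t ht h hh => (hρ t ht h hh).1,
    fun t ht h hh => ?_⟩
  filter_upwards [(hρ t ht h (Ioo_subset_Icc_self hh)).2,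
    (continuous_snd.tendsto (t, h)).eventually (isOpen_Ioo.mem_nhds hh)] with p hp h2
  refine HasDerivAt.congr_deriv (hd_xi (η := fun _ => p.2) (hasDerivAt_const p.1 p.2) hp.2 hp.1.2) ?_
  rw [eg (p.1, xi p.2 (ρ p.1 p.2)) hp.1.1 (xi_Icc (Ioo_subset_Icc_self h2) _), bub, xi_mul hp.1.2]
  ring

/-- **G3** -/
theorem g3 : G3 := by
  intro q a T W X z Y v G
  obtain ⟨gW, cW, eW⟩ := ext_Ioo G.smW
  obtain ⟨gX, cX, eX⟩ := ext_Ioo G.smX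
  obtain ⟨gz, cz, ez⟩ := ext_Ioo G.smz
  obtain ⟨gY, cY, eY⟩ := ext_Ioo G.smY
  have hlt := G.lt
  set c := (a + T) / 2 with hc
  have hac : a < c := by linarith
  have hcT : c < T := by linarith
  obtain ⟨ρ, h0, cρ, ho⟩ := ex_rho G.smv hac
  set φ : ℝ → ℝ → ℝ := fun t h => xi h (ρ t h) with hφ
  have sub : ∀ t ∈ Ico c T, t ∈ Ioo a T := fun t ht => ⟨hac.trans_le ht.1, ht.2⟩
  have cι : ∀ t ∈ Ico c T, ∀ h ∈ Icc (-1 : ℝ) 1,
      ContDiffAt ℝ ∞ (fun p : ℝ × ℝ => (p.2, ρ p.1 p.2)) (t, h) := fun t ht h hh =>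
    contDiffAt_snd.prodMk (cρ t ht h hh)
  have cφ : ∀ t ∈ Ico c T, ∀ h ∈ Icc (-1 : ℝ) 1, ContDiffAt ℝ ∞ (un φ) (t, h) := fun t ht h hh =>
    ContDiffAt.comp (g := un xi) (t, h) (cd_xi (p := (h, ρ t h)) (Dn_pos hh _)) (cι t ht h hh)
  have cE : ∀ t ∈ Ico c T, ∀ h ∈ Icc (-1 : ℝ) 1,
      ContDiffAt ℝ ∞ (fun p : ℝ × ℝ => Ef p.2 (ρ p.1 p.2)) (t, h) := fun t ht h hh =>
    ContDiffAt.comp (g := un Ef) (t, h) (cd_Ef (p := (h, ρ t h)) (Dn_pos hh _)) (cι t ht h hh)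
  have cg : ∀ {g : ℝ × ℝ → ℝ}, (∀ p : ℝ × ℝ, p.1 ∈ Ioo a T → ContDiffAt ℝ ∞ g p) →
      ∀ t ∈ Ico c T, ∀ h ∈ Icc (-1 : ℝ) 1,
        ContDiffAt ℝ ∞ (fun p : ℝ × ℝ => g (p.1, φ p.1 p.2)) (t, h) := fun hg t ht h hh =>
    (hg (t, φ t h) (sub t ht)).comp (t, h) (contDiffAt_fst.prodMk (cφ t ht h hh))
  have dφ : ∀ t ∈ Ico c T, ∀ h ∈ Icc (-1 : ℝ) 1,
      deriv (φ t) h = Ef h (ρ t h) * (1 + (1 - h ^ 2) / 2 * deriv (ρ t) h) / 2 := fun t ht h hh =>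
    (hd_xi (hasDerivAt_id' h) (hd_of (cd_x (cρ t ht h hh))) (Dn_pos hh _)).deriv
  have nφ : ∀ t ∈ Ico c T, ∀ h ∈ Ioo (-1 : ℝ) 1, deriv (φ t) h ≠ 0 := by
    intro t ht h hh
    have hs : ∀ s ∈ Icc c t, s ∈ Ico c T := fun s hs => ⟨hs.1, hs.2.trans_lt ht.2⟩
    refine flow_ne (V := bub 1 v) ht.1
      (fun s h1 => bub_at 1 (SmC_at G.smv (sub s (hs s h1)) (xi_Ioo hh _)))
      (fun s h1 => cφ s (hs s h1) h (Ioo_subset_Icc_self hh)) (fun s h1 => ho s (hs s h1) h hh) ?_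
    have e : ρ c =ᶠ[𝓝 h] fun _ => 0 := by
      filter_upwards [isOpen_Ioo.mem_nhds hh] with y hy using h0 y (Ioo_subset_Icc_self hy)
    rw [dφ c ⟨le_rfl, hcT⟩ h (Ioo_subset_Icc_self hh), e.deriv_eq, deriv_const]
    have := Ef_pos (Dn_pos (Ioo_subset_Icc_self hh) (ρ c h))
    rw [mul_zero]
    positivity
  have nσ : ∀ t ∈ Ico c T, ∀ h ∈ Icc (-1 : ℝ) 1, 1 + (1 - h ^ 2) / 2 * deriv (ρ t) h ≠ 0 := by
    intro t ht h hh
    rcases hh.1.eq_or_lt with rfl | h1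
    · norm_num
    rcases hh.2.eq_or_lt with rfl | h2
    · norm_num
    intro h3
    exact nφ t ht h ⟨h1, h2⟩ (by rw [dφ t ht h hh, h3]; simp)
  set A : ℝ → ℝ → ℝ := fun t h => Ef h (ρ t h) * gX (t, φ t h) with hA
  set B : ℝ → ℝ → ℝ := fun t h => Ef h (ρ t h) * (deriv (ρ t) h + (1 - h ^ 2) / 4 *
    deriv (ρ t) h ^ 2 + Ef h (ρ t h) * gY (t, φ t h) / 4) / gz (t, φ t h) with hB
  have eS : ∀ t ∈ Ico c T, ∀ h ∈ Icc (-1 : ℝ) 1, A t h + B t h * (1 - h ^ 2) =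
      Ef h (ρ t h) * (1 + (1 - h ^ 2) / 2 * deriv (ρ t) h) ^ 2 / z t (φ t h) := by
    intro t ht h hh
    have hx : φ t h ∈ Icc (0 : ℝ) 1 := xi_Icc hh _
    have h1 := G.pole t (sub t ht) _ hx
    have h2 := (G.posz t (sub t ht) _ hx).ne'
    rw [show φ t h * (1 - φ t h) = _ from xi_mul (Dn_pos hh _)] at h1
    simp only [hA, hB, eX (t, φ t h) (sub t ht) hx, eY (t, φ t h) (sub t ht) hx,
      ez (t, φ t h) (sub t ht) hx]
    field_simp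
    linear_combination (-(16 : ℝ) * Ef h (ρ t h)) * h1
  have key : ∀ t ∈ Ioo c T, ∀ h ∈ Ioo (-1 : ℝ) 1,
      fR q (fun h => gW (t, φ t h)) (redP A t) (redZ A B t) h =
        fR q (W t) (bub 4 X t) (bub 1 z t) (φ t h) ∧
      (Eqs q W (bub 4 X) (bub 1 z) (bub 1 v) t (φ t h) →
        Eqs q (fun t h => gW (t, φ t h)) (redP A) (redZ A B) (fun _ _ => 0) t h) := by
    intro t ht h hh
    have ht' := Ioo_subset_Ico_self ht
    have hx : φ t h ∈ Ioo (0 : ℝ) 1 := xi_Ioo hh _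
    have hO : Ioo c T ×ˢ Ioo (-1 : ℝ) 1 ∈ 𝓝 (t, h) :=
      prod_mem_nhds (isOpen_Ioo.mem_nhds ht) (isOpen_Ioo.mem_nhds hh)
    refine reparam q (W' := fun t h => gW (t, φ t h)) (SmC_at G.smW (sub t ht') hx)
      (bub_at 4 (SmC_at G.smX (sub t ht') hx)) (bub_at 1 (SmC_at G.smz (sub t ht') hx))
      (bub_at 1 (SmC_at G.smv (sub t ht') hx)) (cφ t ht' h (Ioo_subset_Icc_self hh))
      (nφ t ht' h hh) (ho t ht' h hh) ?_ ?_ ?_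
    · filter_upwards [hO] with p hp
      exact eW (p.1, φ p.1 p.2) (sub _ (Ioo_subset_Ico_self hp.1))
        (xi_Icc (Ioo_subset_Icc_self hp.2) _)
    · filter_upwards [hO] with p hp
      have h2 := Ioo_subset_Icc_self hp.2
      rw [redP, bub, show φ p.1 p.2 * (1 - φ p.1 p.2) = _ from xi_mul (Dn_pos h2 _)]
      simp only [hA, eX (p.1, φ p.1 p.2) (sub _ (Ioo_subset_Ico_self hp.1)) (xi_Icc h2 _)]
      ring
    · filter_upwards [hO] with p hp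
      have h1 := Ioo_subset_Ico_self hp.1
      have h2 := Ioo_subset_Icc_self hp.2
      have h3 := (G.posz _ (sub _ h1) _ (show φ p.1 p.2 ∈ Icc (0 : ℝ) 1 from xi_Icc h2 _)).ne'
      have h4 := nσ _ h1 _ h2
      have h5 := (Ef_pos (Dn_pos h2 (ρ p.1 p.2))).ne'
      rw [redZ, bub, show φ p.1 p.2 * (1 - φ p.1 p.2) = _ from xi_mul (Dn_pos h2 _), eS _ h1 _ h2,
        dφ _ h1 _ h2]
      generalize 1 + (1 - p.2 ^ 2) / 2 * deriv (ρ p.1) p.2 = σ at h4 ⊢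
      field_simp
      ring
  refine ⟨c, fun t h => gW (t, φ t h), A, B, hcT, fun t ht h hh => cg cW t ⟨ht.1.le, ht.2⟩ h hh,
    fun t ht h hh => (cE t ⟨ht.1.le, ht.2⟩ h hh).mul (cg cX t ⟨ht.1.le, ht.2⟩ h hh),
    fun t ht h hh => ?_, fun t ht h hh => ?_, fun t ht h hh => ?_, fun t ht h hh => ?_,
    fun t ht h hh => ?_, ?_, ?_⟩
  · have ht' := Ioo_subset_Ico_self ht
    have h1 := cd_dx (cρ t ht' h hh)
    have h2 := cE t ht' h hh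
    refine (h2.mul ((h1.add (ContDiffAt.mul (f := fun p : ℝ × ℝ => (1 - p.2 ^ 2) / 4) (by fun_prop)
      (h1.pow 2))).add ((h2.mul (cg cY t ht' h hh)).div_const 4))).div (cg cz t ht' h hh) ?_
    show gz (t, φ t h) ≠ 0
    rw [ez (t, φ t h) (sub t ht') (xi_Icc hh _)]
    exact (G.posz t (sub t ht') _ (xi_Icc hh _)).ne'
  · have ht' := Ioo_subset_Ico_self ht
    show 0 < gW (t, φ t h)
    rw [eW (t, φ t h) (sub t ht') (xi_Icc hh _)]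
    exact G.posW t (sub t ht') _ (xi_Icc hh _)
  · have ht' := Ioo_subset_Ico_self ht
    refine mul_pos (Ef_pos (Dn_pos hh _)) ?_
    rw [eX (t, φ t h) (sub t ht') (xi_Icc hh _)]
    exact G.posX t (sub t ht') _ (xi_Icc hh _)
  · have ht' := Ioo_subset_Ico_self ht
    rw [eS t ht' h hh]
    exact div_pos (mul_pos (Ef_pos (Dn_pos hh _)) (sq_pos_of_ne_zero (nσ t ht' h hh)))
      (G.posz t (sub t ht') _ (xi_Icc hh _))
  · exact (key t ht h hh).2 (G.eqs t (sub t (Ioo_subset_Ico_self ht)) _ (xi_Ioo hh _))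
  · obtain ⟨C, hC⟩ := G.scal
    refine ⟨C, fun t ht h hh => ?_⟩
    rw [(key t ht h hh).1]
    exact hC t (sub t (Ioo_subset_Ico_self ht)) _ (xi_Ioo hh _)
  · refine G.tip.congr' ?_
    filter_upwards [Ioo_mem_nhdsLT hlt] with t ht
    have : φ t (-1) = 0 := by simp [hφ, xi]
    rw [this, eW (t, 0) ht ⟨le_rfl, zero_le_one⟩]

end Crest.Agent.N207.S.Gc
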