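import Crest.Agent.N207.S.G1e
import Crest.Agent.N207.S.Gb4
import Crest.Agent.N207.S.Gc4
/-!
Row 207 / S0320: the whole geometry block.  `GaugeSol → Goal q` (the statement of S0320 for `q`).
-/

set_option autoImplicit false

namespace Crest.Agent.N207.S.Geo

/-- **Geometry block**: a gauge solution gives the Ricci flow of S0320
(finish with `Gb.s0320_of hq`). -/
theorem geo {q : ℕ} {a T : ℝ} {W X z Y v : ℝ → ℝ → ℝ} (h : GaugeSol q a T W X z Y v) :
    Gb.Goal q :=
  Gb.geo_of g1 Gc.g3 h

end Crest.Agent.N207.S.Geo
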