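import Crest.Agent.N207.S.I1.AB
import Crest.Agent.N207.S.I1.PDefs
import Crest.Agent.N207.S.In.Box

/-!
Row 207 (S0320), block I1 (d): `0 < w_x < 2` in the inner region (helper55).
-/

set_option autoImplicit false

open Set

namespace Crest.Agent.N207.S.I1

open MP Top

variable {e t xs T C : ℝ} {w wt k kt : ℕ → ℝ → ℝ → ℝ}

/-- zero order coefficient in the equation of `P = w_x`. -/
noncomputable def cP (e x w0 w1 k0 k1 : ℝ) : ℝ :=
  2 * e * (1 - x / w0 * w1) * (w0 * -(k0 + x * k1) - (1 - x * k0) * w1) / w0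

/-- drift in the equation of `P = w_x`. -/
noncomputable def bP (e x w0 w1 k0 k1 : ℝ) : ℝ :=
  1 + 4 * e * (1 - x * k0) + 2 * e * (x / w0 * (w0 * -(k0 + x * k1))) -
    4 * e * (1 - x * k0) * (x / w0 * w1)

theorem wt1_eq (h : XSol e 0 t xs w wt k kt) (hxs : 0 < xs) {s x : ℝ} (hs : s ∈ Icc 0 t)
    (hx : x ∈ Icc 0 xs) : wt 1 s x = 2 * e * (1 - x * k 0 s x) * x * w 3 s x +
      bP e x (w 0 s x) (w 1 s x) (k 0 s x) (k 1 s x) * w 2 s x +
      cP e x (w 0 s x) (w 1 s x) (k 0 s x) (k 1 s x) * w 1 s x := by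
  have := (h.pos s x hs hx).ne'
  rw [In.wt1 h hxs hs hx]
  simp only [In.xW, In.xZ, In.ev1_add, In.ev1_sub, In.ev1_mul, In.ev1_v, In.ev1_c, In.ev_add,
    In.ev_sub, In.ev_mul, In.ev_v, In.ev_c, In.env, In.env1, bP, cP]
  field_simp
  ring

theorem bP_zero (e w0 w1 k0 k1 : ℝ) : bP e 0 w0 w1 k0 k1 = 1 + 4 * e := by simp [bP]

/-- generic maximum principle for `σ P` against a barrier depending on time only. -/
theorem mpP (h : XSol e 0 t xs w wt k kt) (he : 0 ≤ e) (hT : t < T)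
    (hxs : 1 / 200 * (T - 0) ≤ xs) {σ : ℝ} {g g' : ℝ → ℝ} (hg : ∀ s, HasDerivAt g (g' s) s)
    (hz : ∀ s ∈ Icc 0 t, ∀ x ∈ Icc 0 xs, 0 < 1 - x * k 0 s x)
    (h0 : ∀ x, 0 ≤ x → x ≤ 1 / 200 * (T - 0) → σ * w 1 0 x < g 0)
    (hr : ∀ s ∈ Icc 0 t, σ * w 1 s (1 / 200 * (T - s)) < g s)
    (hc : ∀ s ∈ Icc 0 t, ∀ x, 0 ≤ x → x ≤ 1 / 200 * (T - s) → σ * w 1 s x = g s →
      cP e x (w 0 s x) (w 1 s x) (k 0 s x) (k 1 s x) * g s < g' s) :
    ∀ s ∈ Icc 0 t, ∀ x, 0 ≤ x → x ≤ 1 / 200 * (T - s) → σ * w 1 s x < g s := by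
  have hy : (0 : ℝ) < 1 / 200 := by norm_num
  have hgc : Continuous g := continuous_iff_continuousAt.2 fun s => (hg s).continuousAt
  have main := mp_family_left (ι := Unit) (r := fun s => 1 / 200 * (T - s)) (a := 0) (t0 := 0)
    (t1 := t) (by fun_prop) (fun t _ b => mul_pos hy (by linarith))
    (fun _ s x => σ * w 1 s x - g s) (fun _ s x => σ * wt 1 s x - g' s)
    (fun _ s x => σ * w 2 s x) (fun _ s x => σ * w 3 s x) ?_ ?_ ?_ ?_ ?_ ?_ ?_ ?_ ?_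
  · intro s hs x a b
    linarith [main () s x hs.1 hs.2 a b]
  · intro _
    exact (continuousOn_const.mul ((h.jw.cu 1).mono (reg_sub hy hxs))).sub (by fun_prop)
  · intro _ s x a b c d
    exact ((jet_dt h.jw 1 a b c (le_xs hy hxs a.le d.le)).const_mul σ).sub (hg s).hasDerivWithinAt
  · intro _ s x a b c d
    exact ((jet_dx h.jw 1 a.le b c (lt_xs hy hxs a.le d)).const_mul σ).sub_const _
  · intro _ s a b
    have h1 : 0 ≤ xs := le_xs hy hxs a.le (mul_pos hy (by linarith)).le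
    exact (((h.jw.dx 1 s 0 ⟨a.le, b⟩ ⟨le_rfl, h1⟩).mono
      (Icc_subset_Icc le_rfl (le_xs hy hxs a.le le_rfl))).const_mul σ).sub_const _
  · intro _ s x a b c d
    exact (jet_dx h.jw 2 a.le b c (lt_xs hy hxs a.le d)).const_mul σ
  · intro _ x a b
    linarith [h0 x a b]
  · intro _ s x a b u d _ e0 e1 e2 e3
    have hx : x ∈ Icc 0 xs := ⟨u.le, le_xs hy hxs a.le d.le⟩
    have h1 := hc s ⟨a.le, b⟩ x u.le d.le (by linarith)
    have h2 := hz s ⟨a.le, b⟩ x hx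
    rw [wt1_eq h (u.trans_le hx.2) ⟨a.le, b⟩ hx] at e1
    have h3 : 2 * e * (1 - x * k 0 s x) * x * (σ * w 3 s x) ≤ 0 :=
      mul_nonpos_of_nonneg_of_nonpos (by positivity) e3
    rw [← show σ * w 1 s x = g s by linarith] at h1
    have h4 : bP e x (w 0 s x) (w 1 s x) (k 0 s x) (k 1 s x) * (σ * w 2 s x) = 0 := by
      rw [e2, mul_zero]
    linarith
  · intro _ s a b _ e0 e1 e2
    have h1 : 0 < xs := lt_xs hy hxs a.le (mul_pos hy (by linarith))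
    have h2 := hc s ⟨a.le, b⟩ 0 le_rfl (mul_pos hy (by linarith)).le (by linarith)
    rw [wt1_eq h h1 ⟨a.le, b⟩ ⟨le_rfl, h1.le⟩, bP_zero] at e1
    rw [← show σ * w 1 s 0 = g s by linarith] at h2
    have h3 : (1 + 4 * e) * (σ * w 2 s 0) ≤ 0 := mul_nonpos_of_nonneg_of_nonpos (by linarith) e2
    linarith
  · intro _ s a b _ e0
    linarith [hr s ⟨a.le, b⟩]

/-- `P > 0`. -/
theorem posP (h : XSol e 0 t xs w wt k kt) (he : 0 ≤ e) (hT : t < T)
    (hxs : 1 / 200 * (T - 0) ≤ xs) (hz : ∀ s ∈ Icc 0 t, ∀ x ∈ Icc 0 xs, 0 < 1 - x * k 0 s x)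
    (h0 : ∀ x, 0 ≤ x → x ≤ 1 / 200 * (T - 0) → 1 / 2 ≤ w 1 0 x)
    (hr : ∀ s ∈ Icc 0 t, 1 / 2 ≤ w 1 s (1 / 200 * (T - s))) :
    ∀ s ∈ Icc 0 t, ∀ x, 0 ≤ x → x ≤ 1 / 200 * (T - s) → 0 < w 1 s x := by
  have hy : (0 : ℝ) < 1 / 200 := by norm_num
  have c0 := h.jw.cu 0
  have c1 := h.jw.cu 1
  have c2 := h.jk.cu 0
  have c3 := h.jk.cu 1
  have hw : ∀ p ∈ Icc 0 t ×ˢ Icc 0 xs, w 0 p.1 p.2 ≠ 0 := fun p hp =>
    (h.pos p.1 p.2 hp.1 hp.2).ne'
  obtain ⟨L, hL⟩ := (isCompact_Icc.prod isCompact_Icc).exists_bound_of_continuousOn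
    (f := fun p : ℝ × ℝ => cP e p.2 (w 0 p.1 p.2) (w 1 p.1 p.2) (k 0 p.1 p.2) (k 1 p.1 p.2))
    (s := Icc 0 t ×ˢ Icc 0 xs) (by
      unfold cP
      exact ((continuousOn_const.mul (continuousOn_const.sub ((continuousOn_snd.div c0 hw).mul
        c1))).mul ((c0.mul (c2.add (continuousOn_snd.mul c3)).neg).sub
          ((continuousOn_const.sub (continuousOn_snd.mul c2)).mul c1))).div c0 hw)
  have hle : ∀ s, 0 ≤ s → Real.exp (-(|L| + 1) * s) ≤ 1 := fun s hs =>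
    Real.exp_le_one_iff.2 (by nlinarith [abs_nonneg L])
  have main := mpP (σ := -1) (g := fun s => -(1 / 4) * Real.exp (-(|L| + 1) * s))
    (g' := fun s => -(1 / 4) * (Real.exp (-(|L| + 1) * s) * -(|L| + 1))) h he hT hxs
    (fun s => ((((hasDerivAt_id s).const_mul (-(|L| + 1))).exp).const_mul (-(1 / 4))).congr_deriv
      (by simp only [id, mul_one])) hz
    (fun x a b => by linarith [h0 x a b, hle 0 le_rfl])
    (fun s hs => by linarith [hr s hs, hle s hs.1]) fun s hs x a b _ => by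
      have h1 := hL (s, x) ⟨hs, a, le_xs hy hxs hs.1 b⟩
      have h2 := Real.exp_pos (-(|L| + 1) * s)
      have h3 := (abs_le.1 (h1.trans (le_abs_self L))).1
      nlinarith
  intro s hs x a b
  linarith [main s hs x a b, Real.exp_pos (-(|L| + 1) * s)]

theorem rx_bd {x w0 k0 k1 : ℝ} (hx : 0 ≤ x) (hw : x ≤ w0) (h0 : |w0 * k0| ≤ 1 / 100)
    (h1 : |w0 ^ 2 * k1| ≤ 1 / 100) : |x * k0| ≤ 1 / 100 ∧ |w0 * -(k0 + x * k1)| ≤ 1 / 50 := by
  have hw0 : 0 ≤ w0 := hx.trans hw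
  rw [abs_mul, abs_of_nonneg hw0] at h0
  rw [abs_mul, abs_of_nonneg (sq_nonneg _)] at h1
  have a := abs_nonneg k0
  have b := abs_nonneg k1
  constructor
  · rw [abs_mul, abs_of_nonneg hx]; nlinarith
  · rw [abs_mul, abs_of_nonneg hw0, abs_neg]
    have c := abs_add_le k0 (x * k1)
    rw [abs_mul, abs_of_nonneg hx] at c
    nlinarith [mul_le_mul_of_nonneg_left c hw0, mul_le_mul_of_nonneg_right hw (mul_nonneg hw0 b)]

theorem alg_d {e z κ ρ B p2 p3 : ℝ} (he : 0 ≤ e) (he1 : e ≤ 1 / 1000) (z0 : 99 / 100 ≤ z)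
    (z1 : z ≤ 101 / 100) (hκ : |κ| ≤ 1 / 50) (r0 : 0 ≤ ρ) (r1 : ρ ≤ 1) (hB : 0 < B) (hB1 : B ≤ 1)
    (e2 : p2 = -(1 / 10 * B)) (e3 : p3 ≤ 1 / 10 * (1 / 10 + 1) * B)
    (e1 : -(3 / 400 * B) ≤ 2 * e * z * p3 +
      (1 + 4 * e * z + 2 * e * (ρ * κ) - 4 * e * z * (ρ * (1 + B))) * p2 +
      2 * e * ((1 - ρ * (1 + B)) * (κ - z * (1 + B)) * ρ * (1 + B))) : False := by
  obtain ⟨k0, k1⟩ := abs_le.1 hκ
  have ez0 : 0 ≤ e * z := mul_nonneg he (by linarith)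
  have ez1 : e * z ≤ 1 / 900 := by nlinarith
  have a1 : 2 * (e * z) * p3 ≤ 2 * (e * z) * (11 / 100 * B) :=
    mul_le_mul_of_nonneg_left (by linarith) (by linarith)
  have a2 : ρ * (1 + B) ≤ 2 := by nlinarith
  have a3 : -(1 / 50) ≤ ρ * κ := by nlinarith
  have a4 : 9 / 10 ≤ 1 + 4 * e * z + 2 * e * (ρ * κ) - 4 * e * z * (ρ * (1 + B)) := by
    nlinarith [mul_le_mul_of_nonneg_left a2 ez0, mul_le_mul_of_nonneg_left a3 he]
  have a5 : (1 - ρ * (1 + B)) * (κ - z * (1 + B)) * ρ * (1 + B) ≤ 5 * B := by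
    have b0 : 0 ≤ z * (1 + B) - κ := by nlinarith
    have b1 : z * (1 + B) - κ ≤ 5 / 2 := by nlinarith
    have b2 : ρ * (1 + B) - 1 ≤ B := by nlinarith
    have b3 : 0 ≤ (z * (1 + B) - κ) * (ρ * (1 + B)) := by positivity
    have b4 : (z * (1 + B) - κ) * (ρ * (1 + B)) ≤ 5 / 2 * 2 :=
      mul_le_mul b1 a2 (by positivity) (by norm_num)
    nlinarith [mul_le_mul_of_nonneg_right b2 b3]
  rw [e2] at e1
  nlinarith [mul_le_mul_of_nonneg_left a5 he, mul_le_mul_of_nonneg_right a4 hB.le,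
    mul_le_mul_of_nonneg_right ez1 hB.le, mul_le_mul_of_nonneg_right he1 hB.le]

theorem one_le_neg {x : ℝ} (h0 : 0 < x) (h1 : x ≤ 1) : 1 ≤ x ^ (-(1 / 10 : ℝ)) :=
  Real.one_le_rpow_of_pos_of_le_one_of_nonpos h0 h1 (by norm_num)

/-- `D < 2 τ^(3/2) x^(-1/10)`. -/
theorem upD (h : XSol e 0 t xs w wt k kt) (he : 0 ≤ e) (he1 : e ≤ 1 / 1000) (ht : 0 ≤ t)
    (hT : t < T) (hT1 : T ≤ 1) (hxs : 1 / 200 * (T - 0) ≤ xs)
    (hb : ∀ s ∈ Icc 0 t, ∀ x, 0 ≤ x → x ≤ 1 / 200 * (T - s) → x ≤ w 0 s x ∧ w 1 s x ≤ 2 ∧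
      |w 0 s x * k 0 s x| ≤ 1 / 100 ∧ |w 0 s x ^ 2 * k 1 s x| ≤ 1 / 100)
    (h0 : ∀ x, 0 ≤ x → x ≤ 1 / 200 * (T - 0) → w 1 0 x - 1 ≤ T ^ (3 / 2 : ℝ))
    (hr : ∀ s ∈ Icc 0 t, w 1 s (1 / 200 * (T - s)) - 1 ≤ (T - s) ^ (3 / 2 : ℝ)) :
    ∀ s ∈ Icc 0 t, ∀ x, 0 < x → x ≤ 1 / 200 * (T - s) →
      w 1 s x - 1 < 2 * (T - s) ^ (3 / 2 : ℝ) * x ^ (-(1 / 10 : ℝ)) := by
  have hy : (0 : ℝ) < 1 / 200 := by norm_num
  have hd : ∀ s, s ≤ t → HasDerivAt (fun s => 2 * (T - s) ^ (3 / 2 : ℝ))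
      (-(3 * (T - s) ^ (3 / 2 : ℝ) / (T - s))) s := fun s hs => by
    have := ((hasDerivAt_rpow_div (x := T - s) (by linarith) (3 / 2)).comp s
      ((hasDerivAt_id s).const_sub T)).const_mul 2
    exact this.congr_deriv (by ring)
  have hp : ∀ s, s ≤ t → 0 < (T - s) ^ (3 / 2 : ℝ) := fun s hs =>
    Real.rpow_pos_of_pos (by linarith) _
  have main := mp_sing (ι := Unit) (r := fun s => 1 / 200 * (T - s))
    (s := fun s => 2 * (T - s) ^ (3 / 2 : ℝ))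
    (st := fun s => -(3 * (T - s) ^ (3 / 2 : ℝ) / (T - s))) (a := 1 / 10) (b := 0) (K := 0) ht
    (by norm_num) le_rfl (by fun_prop) (fun t _ b => mul_pos hy (by linarith))
    (fun s hs => (hd s hs.2).continuousAt.continuousWithinAt)
    (fun s _ b => by linarith [hp s b]) (fun s _ b => (hd s b).hasDerivWithinAt)
    (fun _ t x => w 1 t x - 1) (fun _ t x => wt 1 t x) (fun _ t x => w 2 t x)
    (fun _ t x => w 3 t x) ?_ ?_ ?_ ?_ ?_ ?_ ?_
  · intro s hs x a b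
    have := main () s x hs.1 hs.2 a b
    linarith
  · intro _
    exact ((h.jw.cu 1).mono (reg_sub hy hxs)).sub continuousOn_const
  · intro _ t x a b c d
    exact (jet_dt h.jw 1 a b c.le (le_xs hy hxs a.le d.le)).sub_const 1
  · intro _ t x a b c d
    exact (jet_dx h.jw 1 a.le b c (lt_xs hy hxs a.le d)).sub_const 1
  · intro _ t x a b c d
    exact jet_dx h.jw 2 a.le b c (lt_xs hy hxs a.le d)
  · intro _ x a b
    have h1 := h0 x a.le b
    have h2 := hp 0 ht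
    have h3 := one_le_neg a (by linarith)
    rw [sub_zero] at h2 ⊢
    nlinarith
  · intro _ s x a b u d e0 e1 e2 e3
    have hx : x ∈ Icc 0 xs := ⟨u.le, le_xs hy hxs a.le d.le⟩
    have hw := h.pos s x ⟨a.le, b⟩ hx
    obtain ⟨b1, b2, b3, b4⟩ := hb s ⟨a.le, b⟩ x u.le d.le
    obtain ⟨b5, b6⟩ := rx_bd u.le b1 b3 b4
    obtain ⟨b7, b8⟩ := abs_le.1 b5
    rw [wt1_eq h (u.trans_le hx.2) ⟨a.le, b⟩ hx] at e1
    have hτ : 0 < T - s := by linarith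
    have hq : 0 < x ^ (-(1 / 10 : ℝ)) := Real.rpow_pos_of_pos u _
    simp only [zero_mul, zero_add, zero_sub] at e0 e2 e3
    obtain ⟨B, hB⟩ : ∃ B, B = 2 * (T - s) ^ (3 / 2 : ℝ) * x ^ (-(1 / 10 : ℝ)) := ⟨_, rfl⟩
    have hB0 : 0 < B := by rw [hB]; exact mul_pos (by linarith [hp s b]) hq
    have m1 : -(3 * (T - s) ^ (3 / 2 : ℝ) / (T - s)) * x ^ (-(1 / 10 : ℝ)) =
        -(3 / 2 * B / (T - s)) := by rw [hB]; ring
    rw [m1] at e1
    rw [← hB] at e0 e2 e3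
    have m2 : x * (3 / 2 * B / (T - s)) ≤ 3 / 400 * B := by
      rw [← mul_div_assoc, div_le_iff₀ hτ]; nlinarith
    have m3 := mul_le_mul_of_nonneg_left e1 u.le
    have m4 : w 1 s x = 1 + B := by linarith
    refine alg_d (z := 1 - x * k 0 s x) (ρ := x / w 0 s x) he he1 (by linarith) (by linarith) b6
      (by positivity) ((div_le_one hw).2 b1) hB0 (by linarith) e2 e3 ?_
    simp only [bP, cP, m4] at m3
    refine le_trans (by linarith) (m3.trans (le_of_eq ?_))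
    ring
  · intro _ s a b
    have h1 := hr s ⟨a.le, b⟩
    have h2 := hp s b
    have h3 := one_le_neg (x := 1 / 200 * (T - s)) (by linarith) (by linarith)
    nlinarith

theorem small_x {τ x : ℝ} (h0 : 0 < τ) (h1 : τ ≤ 1 / 100) (hx : 0 < x)
    (h : 3 / 4 < 2 * τ ^ (3 / 2 : ℝ) * x ^ (-(1 / 10 : ℝ))) : x < τ ^ 3 / 3 := by
  by_contra hn
  have a1 : τ ^ (5 : ℝ) ≤ x := by
    rw [show (5 : ℝ) = (5 : ℕ) by norm_num, Real.rpow_natCast]
    have : τ ^ 2 ≤ 1 / 3 := by nlinarith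
    have h3 := pow_pos h0 3
    nlinarith [not_lt.1 hn]
  have a2 : x ^ (-(1 / 10 : ℝ)) ≤ (τ ^ (5 : ℝ)) ^ (-(1 / 10 : ℝ)) :=
    Real.rpow_le_rpow_of_nonpos (Real.rpow_pos_of_pos h0 _) a1 (by norm_num)
  rw [← Real.rpow_mul h0.le] at a2
  have a3 : τ ^ (3 / 2 : ℝ) * τ ^ (5 * -(1 / 10) : ℝ) = τ := by
    rw [← Real.rpow_add h0]; norm_num
  nlinarith [mul_le_mul_of_nonneg_left a2 (Real.rpow_pos_of_pos h0 (3 / 2)).le]

/-- `P < 7/4`. -/
theorem upP (h : XSol e 0 t xs w wt k kt) (he : 0 < e) (he1 : e ≤ 1 / 1000) (ht : 0 ≤ t)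
    (hT : t < T) (hT1 : T ≤ 1 / 100) (hxs : 1 / 200 * (T - 0) ≤ xs)
    (hz : ∀ s ∈ Icc 0 t, ∀ x ∈ Icc 0 xs, 0 < 1 - x * k 0 s x)
    (hb : ∀ s ∈ Icc 0 t, ∀ x, 0 ≤ x → x ≤ 1 / 200 * (T - s) → 1 / 4 * (T - s) ^ 3 ≤ w 0 s x - x ∧
      w 1 s x ≤ 2 ∧ |w 0 s x * k 0 s x| ≤ 1 / 100 ∧ |w 0 s x ^ 2 * k 1 s x| ≤ 1 / 100)
    (h0 : ∀ x, 0 ≤ x → x ≤ 1 / 200 * (T - 0) → w 1 0 x - 1 ≤ T ^ (3 / 2 : ℝ))
    (hr : ∀ s ∈ Icc 0 t, w 1 s (1 / 200 * (T - s)) - 1 ≤ (T - s) ^ (3 / 2 : ℝ)) :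
    ∀ s ∈ Icc 0 t, ∀ x, 0 ≤ x → x ≤ 1 / 200 * (T - s) → w 1 s x < 7 / 4 := by
  have hy : (0 : ℝ) < 1 / 200 := by norm_num
  have hτ : ∀ s ∈ Icc 0 t, 0 < (T - s) ^ 3 := fun s hs => pow_pos (by linarith [hs.2]) 3
  have hD := upD h he.le he1 ht hT (by linarith) hxs
    (fun s hs x a b => ⟨by linarith [(hb s hs x a b).1, hτ s hs], (hb s hs x a b).2⟩) h0 hr
  have hs2 : ∀ s ∈ Icc 0 t, (T - s) ^ (3 / 2 : ℝ) ≤ 1 / 2 := fun s hs => by
    have := Real.rpow_le_rpow_of_exponent_ge (x := T - s) (y := 3 / 2) (z := 1)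
      (by linarith [hs.2]) (by linarith [hs.1]) (by norm_num)
    rw [Real.rpow_one] at this
    linarith [hs.1]
  have main := mpP (σ := 1) (g := fun _ => 7 / 4) (g' := fun _ => 0) h he.le hT hxs
    (fun s => hasDerivAt_const s _) hz
    (fun x a b => by
      have := hs2 0 ⟨le_rfl, ht⟩
      rw [sub_zero] at this
      linarith [h0 x a b])
    (fun s hs => by linarith [hr s hs, hs2 s hs]) fun s hs x a b e0 => by
      have hw := h.pos s x hs ⟨a, le_xs hy hxs hs.1 b⟩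
      obtain ⟨b1, -, b3, b4⟩ := hb s hs x a b
      have t3 := hτ s hs
      obtain ⟨b5, b6⟩ := rx_bd a (by linarith) b3 b4
      have e1 : w 1 s x = 7 / 4 := by linarith
      have m1 : x < (T - s) ^ 3 / 3 := by
        rcases a.eq_or_lt with u | u
        · linarith
        · exact small_x (by linarith [hs.2]) (by linarith [hs.1]) u
            (by linarith [hD s hs x u b])
      have m2 : 0 < 1 - x / w 0 s x * (7 / 4) := by
        rw [sub_pos, div_mul_eq_mul_div, div_lt_one hw]; linarith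
      have m3 : w 0 s x * -(k 0 s x + x * k 1 s x) - (1 - x * k 0 s x) * (7 / 4) < 0 := by
        linarith [(abs_le.1 b5).2, (abs_le.1 b6).2]
      rw [cP, e1]
      exact mul_neg_of_neg_of_pos (div_neg_of_neg_of_pos
        (mul_neg_of_pos_of_neg (by positivity) m3) hw) (by norm_num)
  intro s hs x a b
  linarith [main s hs x a b]

theorem out_pre {X s x : ℝ} (ho : Out.Out T X w s) (hs : s < T) (hX : X ≤ 1 / 4)
    (hx : x ∈ Icc ((T - s) / 200) X) :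
    x ≤ 2 * w 0 s x ∧ |w 1 s x - 1| ≤ 1 / 2 ∧ |w 1 s x - 1| ≤ x ^ (3 / 2 : ℝ) := by
  have h0 : 0 < x := by linarith [hx.1]
  have h1 : x ≤ 1 := by linarith [hx.2]
  obtain ⟨a, b, -⟩ := ho.1 x hx
  have c1 := Real.rpow_le_rpow_of_exponent_ge (y := 11 / 4) (z := 2) h0 h1 (by norm_num)
  have c2 := Real.rpow_le_rpow_of_exponent_ge (y := 7 / 4) (z := 1) h0 h1 (by norm_num)
  have c3 := Real.rpow_le_rpow_of_exponent_ge (y := 7 / 4) (z := 3 / 2) h0 h1 (by norm_num)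
  rw [Real.rpow_two] at c1
  rw [Real.rpow_one] at c2
  exact ⟨by nlinarith [(abs_le.1 a).1, hx.2], by linarith [hx.2], b.trans c3⟩

/-- **I1 (d)**. -/
theorem preStmt : PreStmt := by
  intro C hC
  refine ⟨1 / (1000 * C), 1 / 4, by positivity, by norm_num, fun X hX0 hX => ⟨min X (1 / 100),
    by positivity, ?_⟩⟩
  intro e t T xs w wt k kt he he0 hxs h ht hT hT1 hd hz ho hrx
  have hy : (0 : ℝ) < 1 / 200 := by norm_num
  have t1 : T ≤ X := hT1.trans (min_le_left _ _)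
  have t2 : T ≤ 1 / 100 := hT1.trans (min_le_right _ _)
  have hCe : C * e ≤ 1 / 1000 := by
    rw [le_div_iff₀ (by positivity)] at he0; linarith
  have he1 : e ≤ 1 / 1000 := by nlinarith
  have hxs' : 1 / 200 * (T - 0) ≤ xs := by linarith
  have ey : ∀ s, 1 / 200 * (T - s) = (T - s) / 200 := fun s => by ring
  have hop : ∀ s ∈ Icc 0 t, _ := fun s hs => out_pre (ho s hs) (hs.2.trans_lt hT) hX
    (x := (T - s) / 200) ⟨le_rfl, by linarith [hs.1]⟩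
  have hW := lowW h he.le hT hy hxs' (c := 1 / 4) (by norm_num)
    (fun s x hs a b => (hz s hs x ⟨a, le_xs hy hxs' hs.1 b⟩).le)
    (fun x a b => by rw [sub_zero]; linarith [(hd.1 x ⟨a, by linarith⟩).1])
    (fun s hs => by rw [ey]; linarith [(ho s hs).2.1])
  have hP := posP h he.le hT hxs' hz
    (fun x a b => by linarith [(abs_le.1 (hd.1 x ⟨a, by linarith⟩).2.1).1])
    (fun s hs => by rw [ey]; linarith [(abs_le.1 (hop s hs).2.1).1])
  have pre : ∀ s ∈ Icc 0 t, (∀ x, 0 ≤ x → x ≤ 1 / 200 * (T - s) → w 1 s x - 2 ≤ 0) →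
      Pre X w s := fun s hs h2 x hx => by
    rcases le_total x (1 / 200 * (T - s)) with u | u
    · have := pow_pos (show 0 < T - s by linarith [hs.2]) 3
      refine ⟨by linarith [hW s x hs hx.1 u, hx.1], abs_le.2 ⟨?_, ?_⟩⟩
      · linarith [hP s hs x hx.1 u]
      · linarith [h2 x hx.1 u]
    · obtain ⟨a, b, -⟩ := out_pre (ho s hs) (hs.2.trans_lt hT) hX ⟨by linarith, hx.2⟩
      exact ⟨a, abs_le.2 ⟨by linarith [(abs_le.1 b).1], by linarith [(abs_le.1 b).2]⟩⟩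
  have main := neg_of_no_touch (ι := Unit) (l := fun _ => 0) (r := fun s => 1 / 200 * (T - s))
    (t0 := 0) (t1 := t) continuousOn_const (by fun_prop) (fun _ s x => w 1 s x - 2)
    (fun _ => ((h.jw.cu 1).mono (reg_sub hy hxs')).sub continuousOn_const)
    (fun _ x a b => by linarith [(abs_le.1 (hd.1 x ⟨a, by linarith⟩).2.1).2])
    (fun _ u x a b c d e0 hp => ?_) fun s _ b => mul_pos hy (by linarith)
  · exact fun s hs => pre s hs fun x a b => (main () s x hs.1 hs.2 a b).le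
  · have hsub : Icc 0 u ⊆ Icc 0 t := Icc_subset_Icc le_rfl b
    have hr := hrx u ⟨a.le, b⟩ fun s hs => pre s (hsub hs) fun y a b => hp () s y hs.1 hs.2 a b
    have := upP (h.mono le_rfl b) he he1 a.le (b.trans_lt hT) t2 hxs' (fun s hs => hz s (hsub hs))
      (fun s hs y a b => by
        have r := hr s hs y ⟨a, by linarith [hs.1]⟩
        have r0 := (r 0 (by norm_num)).2
        have r1 := (r 1 (by norm_num)).2
        rw [zero_add, pow_one] at r0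
        exact ⟨hW s y (hsub hs) a b, by linarith [hp () s y hs.1 hs.2 a b], by linarith,
          by linarith⟩)
      (fun y a b => (hd.1 y ⟨a, by linarith⟩).2.2)
      (fun s hs => by
        rw [ey]
        have h1 : 0 < T - s := by linarith [(hsub hs).2]
        exact ((le_abs_self _).trans (hop s (hsub hs)).2.2).trans
          (Real.rpow_le_rpow (by linarith) (by linarith) (by norm_num))) u ⟨a.le, le_rfl⟩ x c d
    linarith

end Crest.Agent.N207.S.I1
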